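import Vale.Agent.P088.R2.H31.EP.Pack
import Vale.Agent.P088.R2.H31.EP.CstL
import Vale.Agent.P088.R2.H475.INF.LevR
import Vale.Agent.P088.R2.H747.A.Row
import Vale.Agent.P088.R2.H747.N.Cn2
import Vale.Agent.P088.R2.H230.W.CvK
import Vale.Agent.P088.R2.H230.W.FlV
import Vale.Agent.P088.R2.H509.EP.Lit

/-!
# P088, stage 3: zone A, the rows on the package

One open set `OmA`, one margin `mA`, one pair of fields `cA₁`, `cA₂` for the leaves `A1`, `A2`,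
`Af`.  `EvC`: the constants; `NB_X f`: `f` depends only on the constants before `X`.
-/

open Set Filter
open scoped ContDiff Topology

noncomputable section

namespace Vale.Agent.P088.R2.H747.A

open Vale.Agent.P088.LR
open Vale.Agent.P088.HY hiding dd
open Vale.Agent.P088.R2.H961.GW Vale.Agent.P088.R2.H644 Vale.Agent.P088.R2.H960.W
open Vale.Agent.P088.R2.H644.Ch (TH GA)
open Vale.Agent.P088.R2.H551.E Vale.Agent.P088.R2.H747.SW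
open Vale.Agent.P088.R2.H31.EP Vale.Agent.P088.R2.H230.W
open Vale.Agent.P088.R2.H464.Cu (mid dif rq)

variable {n : ℕ}

/-! ## Functions -/

/-- `r`. -/
def rr (d : Pk n) (z : VV n) : ℝ := √(d.r2 z)

/-- `log S` as a function of `r`. -/
def lS (q : Cst) (r : ℝ) : ℝ := Real.log (prS q.e₁ (r ^ 2))

/-- `L = S' / S` and `L'` as functions of `r`. -/
def lS₁ (q : Cst) (r : ℝ) : ℝ := prL q.e₁ r
def lS₂ (q : Cst) (r : ℝ) : ℝ := -(prE q.e₁ r * prL q.e₁ r / r)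

/-- `∂_f^i ∂_r^j Ψ`. -/
def D₂ (q : Cst) (i j : ℕ) (f r : ℝ) : ℝ := q.D i j (f, r)

/-- `f = u + log S`. -/
def ff (q : Cst) (d : Pk n) (z : VV n) : ℝ := d.u q z + lS q (rr d z)

/-- `G = Ψ_f`. -/
def GG (q : Cst) (d : Pk n) (z : VV n) : ℝ := D₂ q 1 0 (ff q d z) (rr d z)

/-- `N + G`. -/
def NG (q : Cst) (d : Pk n) (z : VV n) : ℝ := d.N q z + GG q d z

/-- The direction of the gradient of the level at the middle. -/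
def ee (d : Pk n) (l : Fin n) (z : VV n) : ℝ :=
  (√(∑ i, pd i d.l (mid z) ^ 2))⁻¹ * pd l d.l (mid z)

/-- The direction of `x - y`. -/
def hh (l : Fin n) (z : VV n) : ℝ := (√(HY.sq (z.1 - z.2)))⁻¹ * (z.1 l - z.2 l)

/-- The squares of the lengths of `W_x`, `W_y`. -/
def Wx2 (q : Cst) (d : Pk n) (z : VV n) : ℝ := ∑ i, d.sx.D i (d.W q) z ^ 2
def Wy2 (q : Cst) (d : Pk n) (z : VV n) : ℝ := ∑ i, d.sy.D i (d.W q) z ^ 2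

/-! ## The open set -/

/-- Zone A without the conditions on `W_x`, `W_y`. -/
def OmB (q : Cst) (d : Pk n) : Set (VV n) :=
  {z | (q.c₀ / 2) ^ 2 < d.r2 z ∧ HY.sq (z.1 - z.2) < (q.κ₁ * q.R) ^ 2 ∧
    d.l z.1 < d.l₀ q + 5 / 2 * q.R ∧ d.l z.2 < d.l₀ q + 5 / 2 * q.R ∧
    -(17 / 10 * (q.R / q.σ)) < d.l z.1 + d.l z.2 ∧ d.u q z < d.uta q ∧
    (d.u q z < d.uth q ∨ d.N q z < 4 * q.nm * d.E q z)}

/-- Zone A. -/
def OmA (q : Cst) (d : Pk n) : Set (VV n) :=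
  {z | z ∈ OmB q d ∧ (q.rT / 8 * NG q d z) ^ 2 < Wx2 q d z ∧ (q.rT / 8 * NG q d z) ^ 2 < Wy2 q d z}

/-! ## The fields -/

/-- The blending function: `1` for `r ≤ 15`, `0` for `r ≥ 16`. -/
def pb (r : ℝ) : ℝ := 1 - Real.smoothTransition (r - 15)

/-- The covector of the first field. -/
def ga₁ (q : Cst) (d : Pk n) (l : Fin n) (z : VV n) : ℝ :=
  pb (rr d z) * N.gN1 2 (D₂ q) (lS q) (d.u q) (rr d) (fun l => ee d l z) hh l z +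
    (1 - pb (rr d z)) * gF5 (D₂ q) (lS q) (d.u q) (rr d) (fun l => ee d l z) hh 20 l z

/-- The covector of the second field. -/
def ga₂ (q : Cst) (d : Pk n) (l : Fin n) (z : VV n) : ℝ :=
  pb (rr d z) * N.gN2 2 (D₂ q) (lS q) (d.u q) (rr d) (fun l => ee d l z) hh l z +
    (1 - pb (rr d z)) * gF5 (D₂ q) (lS q) (d.u q) (rr d) (fun l => ee d l z) hh (-20) l z

/-- **The fields of zone A.** -/
def cA₁ (q : Cst) (d : Pk n) (l : Fin n) (z : VV n) : ℝ := cv d.sx (ee d) (d.W q) (ga₁ q d) l z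

def cA₂ (q : Cst) (d : Pk n) (l : Fin n) (z : VV n) : ℝ := cv d.sy (ee d) (d.W q) (ga₂ q d) l z

/-- **The margin of zone A.** -/
def mA (μ₀ : Cst → ℝ) (q : Cst) (d : Pk n) (z : VV n) : ℝ :=
  μ₀ q * (GG q d z / rr d z) + q.σ / (400 * q.R) * NG q d z

/-! ## The rows -/

/-- `β = (log M₀)^(-1/2)`. -/
def be (q : Cst) : ℝ := Real.log q.M₀ ^ (-(1 / 2) : ℝ)

/-- The lower bound of the Hessian of `u`. -/
def gH (C : Cst → ℝ) (q : Cst) (d : Pk n) (z : VV n) : ℝ :=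
  q.σ / (40 * q.R) -
    if d.r2 z < 4 ∧ q.Cs * q.M₀ < Real.exp (2 * d.l (mid z)) then C q * be q else 0

/-- The geometry at a point without the direction of `Du`. -/
structure GeoW {E ι : Type*} [NormedAddCommGroup E] [NormedSpace ℝ E] [Fintype ι]
    (σ τ : Sl E ι) (u r : E → ℝ) (e h : ι → ℝ) (ε g : ℝ) (z : E) : Prop where
  ee : dd e e = 1
  hh : dd h h = 1
  r0 : 0 < r z
  sσ : ∀ i j, σ.s i j z = σ.s j i z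
  sτ : ∀ i j, τ.s i j z = τ.s j i z
  ux : nn (gr σ u z) ≤ 3 / 2
  uy : nn (gr τ u z) ≤ 3 / 2
  rx : nn (gr σ r z - h) ≤ ε
  ry : nn (gr τ r z + h) ≤ ε
  nx : ∀ A, nn (sU σ z A - A) ≤ ε * nn A
  ny : ∀ B, nn (sU τ z B - B) ≤ ε * nn B
  Tu : ∀ A B, g * (dd A A + dd B B) ≤ TH σ τ u z A B
  Tr : ∀ A B, |TH σ τ r z A B - (r z)⁻¹ * (dd (sU σ z A - sU τ z B) (sU σ z A - sU τ z B) -
    dd h (sU σ z A - sU τ z B) ^ 2)| ≤ ε / r z * (dd A A + dd B B)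

/-- **Row A-GEO.** -/
def RowGeo (n : ℕ) : Prop := ∃ C : Cst → ℝ, NB_Cs C ∧ (∀ q, 0 < C q) ∧ ∀ ε₀ : Cst → ℝ, NB_σ ε₀ →
  (∀ q, 0 < ε₀ q) → EvC fun q => ∀ d : Pk n, PkOk q d → ∀ z ∈ OmB q d,
    (-(4 * (q.κ₁ * q.R)) ≤ d.u q z →
      Geo d.sx d.sy (d.u q) (rr d) (fun l => ee d l z) (fun l => hh l z) (ε₀ q) (gH C q d z) z) ∧
    (d.u q z ≤ -(4 * (q.κ₁ * q.R)) →
      GeoW d.sx d.sy (d.u q) (rr d) (fun l => ee d l z) (fun l => hh l z) (ε₀ q) (q.σ / (40 * q.R)) z)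

/-- **Row A-MU.** Where `μ` does not vanish one has `N ≤ C G`. -/
def RowMu (n : ℕ) : Prop := ∃ C : Cst → ℝ, NB_M₀ C ∧ (∀ q, 0 < C q) ∧
  EvC fun q => ∀ d : Pk n, PkOk q d → ∀ z ∈ OmB q d, d.r2 z < 4 →
    q.Cs * q.M₀ < Real.exp (2 * d.l (mid z)) → d.N q z ≤ C q * GG q d z

/-- **Row A-DEEP.** `G` is very small at the deep points. -/
def RowDeep (n : ℕ) : Prop := ∀ a : Cst → ℝ, NB_R a → (∀ q, 0 < a q) →
  EvC fun q => ∀ d : Pk n, PkOk q d → ∀ z ∈ OmB q d, d.u q z ≤ -(4 * (q.κ₁ * q.R)) →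
    GG q d z ≤ a q / q.R

/-- **Row A-WD.** The weight is the composed weight of `cert_far_wt6`, `cert_near_wt`. -/
def RowWd (n : ℕ) : Prop := EvC fun q => ∀ d : Pk n, PkOk q d → IsOpen (OmB q d) ∧
  Wd (OmB q d) d.Φ (deriv d.Φ) (deriv (deriv d.Φ)) (lS q) (lS₁ q) (lS₂ q) (D₂ q) (d.u q) (rr d) ∧
  Set.EqOn (d.W q) (wt d.Φ (lS q) (D₂ q) (d.u q) (rr d)) (OmB q d)

/-- Bounds of all derivatives of order one and two in both slots. -/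
structure Bd {E ι : Type*} [NormedAddCommGroup E] [NormedSpace ℝ E] [Fintype ι]
    (σ τ : Sl E ι) (f : E → ℝ) (b₁ b₂ : ℝ) (z : E) : Prop where
  x : ∀ i, |σ.D i f z| ≤ b₁
  y : ∀ i, |τ.D i f z| ≤ b₁
  xx : ∀ i j, |σ.D i (σ.D j f) z| ≤ b₂
  xy : ∀ i j, |σ.D i (τ.D j f) z| ≤ b₂
  yx : ∀ i j, |τ.D i (σ.D j f) z| ≤ b₂
  yy : ∀ i j, |τ.D i (τ.D j f) z| ≤ b₂

/-- **Row A-SYM.** Sizes on `OmB`. -/
def RowSym (n : ℕ) : Prop := ∀ μ₀ : Cst → ℝ, NB_M₀ μ₀ → (∀ q, 0 < μ₀ q) →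
  ∃ C : Cst → ℝ, NB_M₀ C ∧ (∀ q, 0 < C q) ∧ EvC fun q => ∀ d : Pk n, PkOk q d → ∀ z ∈ OmB q d,
    Bd d.sx d.sy (d.u q) 2 (C q) z ∧ Bd d.sx d.sy (rr d) 2 (C q / rr d z) z ∧
    (∀ l, Bd d.sx d.sy (ee d l) (C q / rr d z) (C q) z) ∧
    (∀ l, Bd d.sx d.sy (hh l) (C q / rr d z) (C q) z) ∧
    Bd d.sx d.sy (d.W q) (C q * NG q d z) (C q * NG q d z) z ∧
    |d.sx.Λ (d.W q) z| ≤ C q * NG q d z ∧ |d.sy.Λ (d.W q) z| ≤ C q * NG q d z ∧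
    (∀ i, |d.sx.D i (GG q d) z| ≤ C q * GG q d z) ∧ (∀ i, |d.sy.D i (GG q d) z| ≤ C q * GG q d z) ∧
    (∀ i, |d.sx.D i (mA μ₀ q d) z| ≤ C q * mA μ₀ q d z) ∧
    (∀ i, |d.sy.D i (mA μ₀ q d) z| ≤ C q * mA μ₀ q d z) ∧
    (∀ i j k, |d.sx.D k (d.sx.s i j) z| ≤ 1 ∧ |d.sy.D k (d.sy.s i j) z| ≤ 1)

/-- **Row A-SMS.** The errors of the fields are small. -/
def RowSms (n : ℕ) : Prop := ∃ K : ℝ, 0 < K ∧ ∀ μ₀ ηA : Cst → ℝ, NB_M₀ μ₀ → NB_M₀ ηA →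
  (∀ q, 0 < μ₀ q) → (∀ q, 0 < ηA q) → EvC fun q => ∀ d : Pk n, PkOk q d →
    (∀ i, Sm (OmA q d) (cA₁ q d i)) ∧ (∀ i, Sm (OmA q d) (cA₂ q d i)) ∧ Sm (OmA q d) (mA μ₀ q d) ∧
    ∀ z ∈ OmA q d, SmS d.sx (d.W q) (mA μ₀ q d) (cA₁ q d) 0 (ηA q) K z ∧
      SmS d.sy (d.W q) (mA μ₀ q d) (cA₂ q d) 0 (ηA q) K z

/-- The certificate with the margin `4 m` for fields `c`, `c'`. -/
def Crt (q : Cst) (d : Pk n) (m : VV n → ℝ) (c c' : Fin n → VV n → ℝ) (z : VV n) : Prop :=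
  ∀ A B : Fin n → ℝ, 4 * (m z * (dd A A + dd B B)) ≤
    TH d.sx d.sy (d.W q) z A B + tc d.sx c (d.W q) z A + tc d.sy c' (d.W q) z B

/-- **Row A-CERT.** -/
def RowCrt (n : ℕ) : Prop := ∃ μ₀ : Cst → ℝ, NB_ν₁ μ₀ ∧ (∀ q, 0 < μ₀ q) ∧
  EvC fun q => ∀ d : Pk n, PkOk q d → ∀ z ∈ OmA q d, Crt q d (mA μ₀ q d) (cA₁ q d) (cA₂ q d) z

/-- The size of the fields. -/
def FdB (q : Cst) (d : Pk n) (C : ℝ) (c c' : Fin n → VV n → ℝ) (z : VV n) : Prop :=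
  ∀ i l, |c i z * d.sx.D l (d.W q) z| ≤ C * (GG q d z / rr d z) ∧
    |c' i z * d.sy.D l (d.W q) z| ≤ C * (GG q d z / rr d z)

/-- **Rows A-TOT-N** (`r ≤ 17`) **and A-TOT-F** (`r ≥ 16`): for arbitrary fields. -/
def RowTotOn (n : ℕ) (S : Cst → Pk n → Set (VV n)) : Prop := ∀ μ₀ ηA C : Cst → ℝ, NB_c' μ₀ →
  NB_c' ηA → NB_c' C → (∀ q, 0 < μ₀ q) → (∀ q, 0 < ηA q) → (∀ q, 0 < C q) →
  EvC fun q => ∀ d : Pk n, PkOk q d → ∀ z ∈ OmA q d, z ∈ S q d → ∀ c c' : Fin n → VV n → ℝ,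
    Crt q d (mA μ₀ q d) c c' z → FdB q d (C q) c c' z →
      Tot d.sx d.sy 0 0 (d.W q) (mA μ₀ q d) c c' (ηA q) z

def RowTotN (n : ℕ) : Prop := RowTotOn n fun _ d => {z | rr d z ≤ 17}
def RowTotF (n : ℕ) : Prop := RowTotOn n fun _ d => {z | 16 ≤ rr d z}

/-- **Row A-SUP.** The supports of the leaves. -/
def RowSup (n : ℕ) : Prop := ∀ k ∈ ({.A1, .A2, .Af} : Set H867.EP.Zo), EvC fun q =>
  ∀ d : Pk n, PkOk q d → Sm univ (d.ch q k) ∧ tsupport (d.ch q k) ⊆ OmA q d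

/-- **The zone theorem of zone A.** -/
def ZoneA (n : ℕ) : Prop := ∃ μ₀ : Cst → ℝ, NB_ν₁ μ₀ ∧ (∀ q, 0 < μ₀ q) ∧ ∃ K : ℝ, 0 < K ∧
  ∀ (κ₀ : ℝ) (ηA : Cst → ℝ), 0 < κ₀ → NB_c' ηA →
  (∀ q, 0 < ηA q ∧ ηA q ≤ 1 / 200 ∧ ηA q ≤ κ₀ ∧ K * ηA q ≤ 1) →
  ∀ k ∈ ({.A1, .A2, .Af} : Set H867.EP.Zo), ZoneThm n (fun q d => d.ch q k)
    (fun q d => (MA d.sx d.sy (d.W q) (mA μ₀ q d) κ₀).sm fun z => d.ch q k z ^ 2)
    (fun q d => coA d.sx d.sy (d.W q) (mA μ₀ q d) (d.ch q k) (ηA q))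

end Vale.Agent.P088.R2.H747.A
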