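import Vale.Agent.P088.R2.H747.A.Rows
import Vale.Agent.P088.R2.H768.W.FarJ

/-!
# P088, stage 3: zone A, the profile and the slow exponential at a point
-/

open Set Filter
open scoped ContDiff Topology

noncomputable section

namespace Vale.Agent.P088.R2.H747.A

open Vale.Agent.P088.R2.H31.EP Vale.Agent.P088.R2.H644
open Vale.Agent.P088.HY (VV)
open Vale.Agent.P088.R2.H942.Iso.Near (Lp)

/-! ## The profile -/

theorem Lp_two {r : ℝ} (hr : 0 < r) : 2 * Lp 2 r = Lz 2 r := by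
  have hs : 0 < Real.sinh r := Real.sinh_pos_iff.2 hr
  have h1 : Real.cosh (2 * r) = 1 + 2 * Real.sinh r ^ 2 := by
    rw [Real.cosh_two_mul, Real.cosh_sq]; ring
  have h2 : Real.sinh (2 * r) = 2 * Real.sinh r * Real.cosh r := Real.sinh_two_mul r
  unfold Lp H942.Iso.Near.kp H942.Iso.Near.gp Lz
  rw [h1, h2]
  have e : 2 * r / 2 = r := by ring
  rw [e]
  have := hr.ne'
  have := hs.ne'
  field_simp
  ring

theorem gp_two {r : ℝ} (hr : 0 < r) : 1 / H942.Iso.Near.gp 2 r = ez 2 r * Lz 2 r / r := by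
  have hs : 0 < Real.sinh r := Real.sinh_pos_iff.2 hr
  have hc : 0 < Real.cosh r := Real.cosh_pos r
  have h1 : Real.cosh (2 * r) = 1 + 2 * Real.sinh r ^ 2 := by
    rw [Real.cosh_two_mul, Real.cosh_sq]; ring
  have h2 : Real.sinh (2 * r) = 2 * Real.sinh r * Real.cosh r := Real.sinh_two_mul r
  unfold H942.Iso.Near.gp ez Lz
  rw [h1, h2]
  have e : 2 * r / 2 = r := by ring
  rw [e]
  have := hr.ne'
  have := hs.ne'
  have := hc.ne'
  field_simp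
  ring

/-- Near: the profile is `cosh`. -/
theorem prof_near {e₁ r : ℝ} (he : 0 < e₁) (h0 : 0 < r) (hr : r ≤ rp) :
    prL e₁ r = 2 * Lp 2 r ∧ prE e₁ r * prL e₁ r / r = 1 / H942.Iso.Near.gp 2 r := by
  obtain ⟨R₁, h⟩ := (H768.FarJ.pp he).isProf
  have h1 : prL e₁ r = Lz 2 r := h.L_near r h0 hr
  have h2 : prE e₁ r = ez 2 r := h.e_near r h0 hr
  rw [h1, h2, Lp_two h0, gp_two h0]
  exact ⟨rfl, rfl⟩

/-- The bound of `L` and `L'` on `r ≥ c`. -/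
theorem prof_bd {e₁ c r : ℝ} (he : 0 < e₁) (hc : 0 < c) (hr : c ≤ r) :
    4 / 5 ≤ prL e₁ r ∧ prL e₁ r ≤ Lz 2 c := by
  obtain ⟨R₁, h⟩ := (H768.FarJ.pp he).isProf
  have h0 : 0 < r := hc.trans_le hr
  refine ⟨h.Li_le r, ?_⟩
  exact (h.anti (show c ∈ Ioi (0:ℝ) from hc) (show r ∈ Ioi (0:ℝ) from h0) hr).trans (h.L_le c hc)

theorem exp_thirty : (8000000000000 : ℝ) ≤ Real.exp 30 := by
  have h1 : (2.7 : ℝ) ≤ Real.exp 1 := by linarith [Real.exp_one_gt_d9]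
  have h2 : Real.exp 30 = Real.exp 1 ^ 30 := by
    rw [← Real.exp_nat_mul]; norm_num
  rw [h2]
  have h3 : (2.7 : ℝ) ^ 30 ≤ Real.exp 1 ^ 30 := pow_le_pow_left₀ (by norm_num) h1 30
  refine le_trans ?_ h3
  norm_num

theorem ez_far {r : ℝ} (hr : 15 ≤ r) : ez 2 r ≤ 1 / 1000000000 := by
  have h0 : 0 < r := by linarith
  -- `sinh (2 r) ≥ sinh 30 * (2 r / 30)`
  have hx : (30 : ℝ) ≤ 2 * r := by linarith
  have key : 1000000000 * (2 * r) ≤ Real.sinh (2 * r) := by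
    have h1 : Real.exp 30 * (1 + (2 * r - 30)) ≤ Real.exp (2 * r) := by
      have := Real.add_one_le_exp (2 * r - 30)
      calc Real.exp 30 * (1 + (2 * r - 30)) ≤ Real.exp 30 * Real.exp (2 * r - 30) :=
            mul_le_mul_of_nonneg_left (by linarith) (Real.exp_pos _).le
        _ = Real.exp (2 * r) := by rw [← Real.exp_add]; ring_nf
    have h2 : Real.exp (-(2 * r)) ≤ 1 := Real.exp_le_one_iff.2 (by linarith)
    rw [Real.sinh_eq]
    have h3 : 8000000000000 * (1 + (2 * r - 30)) ≤ Real.exp 30 * (1 + (2 * r - 30)) :=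
      mul_le_mul_of_nonneg_right exp_thirty (by linarith)
    linarith
  have hs : 0 < Real.sinh (2 * r) := by linarith
  unfold ez
  rw [div_le_iff₀ hs]
  linarith

theorem Lz_far {r : ℝ} (hr : 15 ≤ r) : Lz 2 r ≤ 21 / 10 := by
  have h0 : 0 < r := by linarith
  have e : 2 * r / 2 = r := by ring
  have hs : 0 < Real.sinh r := Real.sinh_pos_iff.2 h0
  unfold Lz
  rw [e, div_le_iff₀ hs, Real.cosh_eq, Real.sinh_eq]
  have h1 : (1 : ℝ) + 15 ≤ Real.exp r := by linarith [Real.add_one_le_exp r]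
  have h2 : Real.exp (-r) ≤ 1 / 16 := by
    rw [Real.exp_neg, inv_le_comm₀ (Real.exp_pos _) (by norm_num)]
    linarith
  linarith

/-- Far: `L ≤ 21 / 10`, `|L'| r` is small. -/
theorem prof_far {e₁ r : ℝ} (he : 0 < e₁) (he1 : e₁ ≤ 1 / 1000000000) (hr : 15 ≤ r) :
    4 / 5 ≤ prL e₁ r ∧ prL e₁ r ≤ 21 / 10 ∧ 0 ≤ prE e₁ r ∧
      30000000 * (prE e₁ r * prL e₁ r) ≤ 1 := by
  obtain ⟨R₁, h⟩ := (H768.FarJ.pp he).isProf
  have h0 : 0 < r := by linarith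
  have h1 := prof_bd he (by norm_num : (0:ℝ) < 15) hr
  have h2 : prL e₁ r ≤ 21 / 10 := (h.L_le r h0).trans (Lz_far hr)
  have h3 : 0 ≤ prE e₁ r := h.e_nonneg r h0
  have h4 : prE e₁ r ≤ ez 2 r + e₁ := h.e_le r h0
  refine ⟨h1.1, h2, h3, ?_⟩
  have h5 : prE e₁ r ≤ 2 / 1000000000 := by linarith [ez_far hr]
  have h6 : prE e₁ r * prL e₁ r ≤ 2 / 1000000000 * (21 / 10) :=
    mul_le_mul h5 h2 (by linarith) (by norm_num)
  linarith

/-! ## The slow exponential -/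

variable {n : ℕ} {q : Cst} {d : Pk n} {z : VV n}

/-- The slow exponential at the point. -/
theorem slow_near (hd : PkOk q d) (h0 : 0 < rr d z) (h1 : rr d z < q.r₁ * Real.exp (-1)) :
    D₂ q 2 0 (ff q d z) (rr d z) = GG q d z ∧ D₂ q 0 1 (ff q d z) (rr d z) = 0 ∧
      D₂ q 1 1 (ff q d z) (rr d z) = 0 ∧ D₂ q 0 2 (ff q d z) (rr d z) = 0 ∧
      GG q d z = Real.exp (ff q d z) := by
  have h := fun i j => hd.sl.inn i j (ff q d z, rr d z) h0 h1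
  refine ⟨?_, ?_, ?_, ?_, ?_⟩
  · show q.D 2 0 _ = q.D 1 0 _
    rw [h 2 0, h 1 0]
  · show q.D 0 1 _ = 0
    rw [h 0 1]; simp
  · show q.D 1 1 _ = 0
    rw [h 1 1]; simp
  · show q.D 0 2 _ = 0
    rw [h 0 2]; simp
  · show q.D 1 0 _ = _
    rw [h 1 0]; simp

theorem GG_pos (hd : PkOk q d) (h0 : 0 < rr d z) : 0 < GG q d z := hd.sl.G_pos _ h0

/-- The ratio `κ = D20 / D10` and `ω = D11 / D20`. -/
theorem slow_far (hd : PkOk q d) (hr : 15 ≤ rr d z) (hr1 : 15 ≤ q.r₁) :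
    ∃ κ om : ℝ, 3 ≤ κ * rr d z ∧ |om| ≤ q.es ∧
      |D₂ q 0 1 (ff q d z) (rr d z)| ≤ q.es * GG q d z ∧
      D₂ q 2 0 (ff q d z) (rr d z) = κ * GG q d z ∧
      D₂ q 1 1 (ff q d z) (rr d z) = κ * GG q d z * om ∧
      |D₂ q 0 2 (ff q d z) (rr d z) - κ * GG q d z * om ^ 2| ≤ q.es * (GG q d z / rr d z) := by
  have h0 : 0 < rr d z := by linarith
  set w : ℝ × ℝ := (ff q d z, rr d z) with hw
  have hw2 : 0 < w.2 := h0
  have G0 : 0 < q.D 1 0 w := hd.sl.G_pos w hw2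
  have g0 : 0 < q.D 2 0 w := hd.sl.g_pos w hw2
  refine ⟨q.D 2 0 w / q.D 1 0 w, q.D 1 1 w / q.D 2 0 w, ?_, ?_, hd.sl.mu w hw2, ?_, ?_, ?_⟩
  · have h1 := hd.sl.kap_ge w hw2
    have h2 : 1 / 4 * min 1 √(q.r₁ / rr d z) ≤ q.D 2 0 w / q.D 1 0 w := by
      rw [le_div_iff₀ G0]; exact h1
    have h3 : 12 ≤ min 1 √(q.r₁ / rr d z) * rr d z := by
      rcases le_total (1 : ℝ) √(q.r₁ / rr d z) with h | h
      · rw [min_eq_left h]; linarith
      · rw [min_eq_right h]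
        have h4 : √(q.r₁ / rr d z) * rr d z = √(q.r₁ * rr d z) := by
          rw [Real.sqrt_div' _ h0.le, Real.sqrt_mul' _ h0.le, div_mul_eq_mul_div, div_eq_iff
            (Real.sqrt_pos.2 h0).ne', mul_assoc, Real.mul_self_sqrt h0.le]
        rw [h4]
        refine Real.le_sqrt_of_sq_le ?_
        have : (15:ℝ) * 15 ≤ q.r₁ * rr d z := mul_le_mul hr1 hr (by norm_num) (by linarith)
        linarith
    have h5 := mul_le_mul_of_nonneg_right h2 h0.le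
    linarith
  · rw [abs_div, abs_of_pos g0, div_le_iff₀ g0]
    exact hd.sl.om w hw2
  · show q.D 2 0 w = q.D 2 0 w / q.D 1 0 w * q.D 1 0 w
    field_simp
  · show q.D 1 1 w = q.D 2 0 w / q.D 1 0 w * q.D 1 0 w * (q.D 1 1 w / q.D 2 0 w)
    field_simp
  · show |q.D 0 2 w - q.D 2 0 w / q.D 1 0 w * q.D 1 0 w * (q.D 1 1 w / q.D 2 0 w) ^ 2| ≤
      q.es * (q.D 1 0 w / w.2)
    have e1 : q.D 0 2 w - q.D 2 0 w / q.D 1 0 w * q.D 1 0 w * (q.D 1 1 w / q.D 2 0 w) ^ 2 =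
        (q.D 0 2 w * q.D 2 0 w - q.D 1 1 w ^ 2) / q.D 2 0 w := by
      field_simp
    rw [e1, abs_div, abs_of_pos g0, div_le_iff₀ g0]
    have := hd.sl.s0 w hw2
    have e2 : q.es * (q.D 1 0 w * q.D 2 0 w / w.2) = q.es * (q.D 1 0 w / w.2) * q.D 2 0 w := by
      ring
    rwa [e2] at this

end Vale.Agent.P088.R2.H747.A
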