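import Vale.Agent.P088.R2.H455.E.Lett
import Vale.Agent.P088.R2.H747.A.Rows

/-!
# P088, stage 3: zone A, the rows of the leaves `A1`, `A2`, `Af` in the final letters
-/

open Set Filter MeasureTheory
open scoped ContDiff Topology

noncomputable section

namespace Vale.Agent.P088.R2.H747.A

open Vale.Agent.P088.HY
open Vale.Agent.P088.R2.H31.EP Vale.Agent.P088.R2.H747.SW
open Vale.Agent.P088.R2.H455.E

variable {n : ℕ}

/-- The leaves of zone A for one `μ₀`: for all small `e`. -/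
def ZoA (n : ℕ) (μ₀ : Cst → ℝ) : Prop := ∀ L : Lc n, L.μA = μ₀ →
  (∃ κ₀ : ℝ, 0 < κ₀ ∧ L.kA = fun _ => κ₀) →
  ∀ k ∈ ({.A1, .A2, .Af} : Set H867.EP.Zo), ZoE L k

/-- **The rows of the leaves `A1`, `A2`, `Af` in the final letters.** -/
theorem zoE_of (h : ZoneA n) : ∃ μ₀ : Cst → ℝ, NB_ν₁ μ₀ ∧ (∀ q, 0 < μ₀ q) ∧ ZoA n μ₀ := by
  obtain ⟨μ₀, μ1, μ2, K, K0, z⟩ := h
  refine ⟨μ₀, μ1, μ2, ?_⟩
  rintro L rfl ⟨κ₀, κ0, hκ⟩ k hk
  obtain ⟨t, ht⟩ : ∃ t : ℝ, t = min (1 / 200) (min κ₀ (1 / K)) := ⟨_, rfl⟩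
  have t0 : 0 < t := by
    rw [ht]
    exact lt_min (by norm_num) (lt_min κ0 (by positivity))
  refine ⟨fun _ => t, ⟨fun _ => rfl, fun _ => t0⟩, fun e he het => ?_⟩
  have hq : ∀ q, 0 < e q ∧ e q ≤ 1 / 200 ∧ e q ≤ κ₀ ∧ K * e q ≤ 1 := by
    intro q
    have h1 : e q ≤ t := het q
    have h2 : t ≤ 1 / 200 := by rw [ht]; exact min_le_left _ _
    have h3 : t ≤ κ₀ := by rw [ht]; exact (min_le_right _ _).trans (min_le_left _ _)
    have h4 : t ≤ 1 / K := by rw [ht]; exact (min_le_right _ _).trans (min_le_right _ _)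
    refine ⟨he.2 q, h1.trans h2, h1.trans h3, ?_⟩
    have h5 := h1.trans h4
    rwa [le_div_iff₀ K0, mul_comm] at h5
  have key := z κ₀ e κ0 he.1 hq k hk
  have hk2 : ∀ q, L.kA q = κ₀ := fun q => by rw [hκ]
  unfold RowZo
  rcases hk with rfl | rfl | rfl
  · simpa only [Mz, coz, hk2] using key
  · simpa only [Mz, coz, hk2] using key
  · simpa only [Mz, coz, hk2] using key

end Vale.Agent.P088.R2.H747.A
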