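import Vale.Agent.P088.R2.H747.A.Rows
import Vale.Agent.P088.R2.H747.A.Cg

/-!
# P088, stage 3: zone A, the certificate at the deep points (any field of size `G`)
-/

open Set Filter
open scoped ContDiff Topology

noncomputable section

namespace Vale.Agent.P088.R2.H747.A

open Vale.Agent.P088.R2.H961.GW Vale.Agent.P088.R2.H960.W
open Vale.Agent.P088.R2.H644.Ch
open Vale.Agent.P088.R2.H230.W

variable {E ι : Type*} [NormedAddCommGroup E] [NormedSpace ℝ E] [Fintype ι]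
  {σ τ : Sl E ι} {W u r : E → ℝ} {z : E} {e h : ι → ℝ} {ε g : ℝ}

/-- Sizes of the two forms. -/
theorem GeoW.sizes (G : GeoW σ τ u r e h ε g z) (hε : ε ≤ 1 / 2) (A B : ι → ℝ) :
    (nn (sU σ z A) ≤ 3 / 2 * nn A ∧ nn (sU τ z B) ≤ 3 / 2 * nn B) ∧
    |GA σ τ u z A B| ≤ 9 / 4 * (nn A + nn B) ∧ |GA σ τ r z A B| ≤ 9 / 4 * (nn A + nn B) ∧
      |TH σ τ r z A B| ≤ 5 / r z * (dd A A + dd B B) := by
  have r0 := G.r0
  have hA0 := nn_nonneg A
  have hB0 := nn_nonneg B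
  have nA : nn (sU σ z A) ≤ 3 / 2 * nn A := by
    have h1 := nn_add_le (sU σ z A - A) A
    rw [sub_add_cancel] at h1
    have h2 := G.nx A
    have h3 := mul_le_mul_of_nonneg_right hε hA0
    linarith
  have nB : nn (sU τ z B) ≤ 3 / 2 * nn B := by
    have h1 := nn_add_le (sU τ z B - B) B
    rw [sub_add_cancel] at h1
    have h2 := G.ny B
    have h3 := mul_le_mul_of_nonneg_right hε hB0
    linarith
  have hhn : nn h = 1 := nn_one G.hh
  have rx : nn (gr σ r z) ≤ 3 / 2 := by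
    have h1 := nn_add_le (gr σ r z - h) h
    rw [sub_add_cancel] at h1
    linarith [G.rx]
  have ry : nn (gr τ r z) ≤ 3 / 2 := by
    have h1 := nn_sub_le (gr τ r z + h) h
    rw [add_sub_cancel_right] at h1
    linarith [G.ry]
  have key : ∀ p q : ι → ℝ, nn p ≤ 3 / 2 → nn q ≤ 3 / 2 →
      |dd p (sU σ z A) + dd q (sU τ z B)| ≤ 9 / 4 * (nn A + nn B) := by
    intro p q hp hq
    have h1 : |dd p (sU σ z A)| ≤ 3 / 2 * (3 / 2 * nn A) :=
      (dd_le_nn _ _).trans (mul_le_mul hp nA (nn_nonneg _) (by norm_num))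
    have h2 : |dd q (sU τ z B)| ≤ 3 / 2 * (3 / 2 * nn B) :=
      (dd_le_nn _ _).trans (mul_le_mul hq nB (nn_nonneg _) (by norm_num))
    refine (abs_add_le _ _).trans ?_
    linarith
  refine ⟨⟨nA, nB⟩, ?_, ?_, ?_⟩
  · rw [GA_dd G.sσ G.sτ]
    exact key _ _ G.ux G.uy
  · rw [GA_dd G.sσ G.sτ]
    exact key _ _ rx ry
  · have tr := G.Tr A B
    have h1 : 0 ≤ dd (sU σ z A - sU τ z B) (sU σ z A - sU τ z B) -
        dd h (sU σ z A - sU τ z B) ^ 2 := by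
      have := dd_cs h (sU σ z A - sU τ z B)
      rw [G.hh, one_mul] at this
      linarith
    have h2 : dd (sU σ z A - sU τ z B) (sU σ z A - sU τ z B) ≤ 9 / 2 * (dd A A + dd B B) := by
      rw [← nn_sq]
      have a1 := nn_sub_le (sU σ z A) (sU τ z B)
      have a2 : nn (sU σ z A - sU τ z B) ≤ 3 / 2 * (nn A + nn B) := by linarith
      have a3 := pow_le_pow_left₀ (nn_nonneg _) a2 2
      have a4 : (3 / 2 * (nn A + nn B)) ^ 2 ≤ 9 / 2 * (nn A ^ 2 + nn B ^ 2) := by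
        have := sq_nonneg (nn A - nn B)
        linarith
      rw [nn_sq A, nn_sq B] at a4
      exact a3.trans a4
    have w0 : 0 ≤ dd A A + dd B B := add_nonneg (dd_self_nonneg _) (dd_self_nonneg _)
    have h3 : 0 ≤ (r z)⁻¹ := inv_nonneg.2 r0.le
    have h4 : 0 ≤ (r z)⁻¹ * (dd (sU σ z A - sU τ z B) (sU σ z A - sU τ z B) -
        dd h (sU σ z A - sU τ z B) ^ 2) := mul_nonneg h3 h1
    have h5 : (r z)⁻¹ * (dd (sU σ z A - sU τ z B) (sU σ z A - sU τ z B) -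
        dd h (sU σ z A - sU τ z B) ^ 2) ≤ (r z)⁻¹ * (9 / 2 * (dd A A + dd B B)) :=
      mul_le_mul_of_nonneg_left (by linarith [sq_nonneg (dd h (sU σ z A - sU τ z B))]) h3
    have h6 : ε / r z * (dd A A + dd B B) ≤ (r z)⁻¹ * (1 / 2 * (dd A A + dd B B)) := by
      rw [div_eq_mul_inv, mul_comm ε, mul_assoc]
      exact mul_le_mul_of_nonneg_left (mul_le_mul_of_nonneg_right hε w0) h3
    have e5 : 5 / r z * (dd A A + dd B B) = (r z)⁻¹ * (5 * (dd A A + dd B B)) := by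
      rw [div_eq_mul_inv]; ring
    rw [e5]
    have := abs_le.1 tr
    rw [abs_le]
    constructor
    · linarith [mul_nonneg h3 w0]
    · linarith [mul_nonneg h3 w0]

/-- **The certificate at the deep points.** -/
theorem deep_pt {Φ₁ Φ₂ G₀ L L₁ m₁ k₂₀ k₁₁ k₀₂ K c : ℝ} {e' γ γ' : ι → E → ℝ}
    (G : GeoW σ τ u r e h ε g z) (hε : ε ≤ 1 / 2) (G0 : 0 ≤ G₀) (Φ0 : 0 ≤ Φ₁)
    (K0 : 0 ≤ K) (c0 : 0 < c) (hr : c ≤ r z) (L0 : 0 ≤ L) (LK : L ≤ K) (L1 : |L₁| ≤ K)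
    (h01 : |m₁| ≤ K * G₀) (h11 : |k₁₁| ≤ K * G₀) (h02 : |k₀₂| ≤ K * G₀) (h20 : 0 ≤ k₂₀)
    (he : nn (fun l => e' l z) ≤ 1)
    (hγ : nn (fun l => γ l z) ≤ K * G₀) (hγ' : nn (fun l => γ' l z) ≤ K * G₀)
    (p1 : 0 < dd (gr σ W z) (gr σ W z)) (p2 : 0 < dd (gr τ W z) (gr τ W z)) (A B : ι → ℝ)
    (hT : TH σ τ W z A B =
      Φ₁ * TH σ τ u z A B + Φ₂ * GA σ τ u z A B ^ 2 +
      (G₀ * (TH σ τ u z A B + L * TH σ τ r z A B + L₁ * GA σ τ r z A B ^ 2) +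
        m₁ * TH σ τ r z A B) +
      (k₂₀ * (GA σ τ u z A B + L * GA σ τ r z A B) ^ 2 +
        2 * k₁₁ * ((GA σ τ u z A B + L * GA σ τ r z A B) * GA σ τ r z A B) +
        k₀₂ * GA σ τ r z A B ^ 2)) :
    ((Φ₁ + G₀) * g - (10 * K / c + 50 * K + 25 * K ^ 2) * G₀) * (dd A A + dd B B) +
        Φ₂ * GA σ τ u z A B ^ 2 ≤
      TH σ τ W z A B + tc σ (cv σ e' W γ) W z A + tc τ (cv τ e' W γ') W z B := by
  have r0 := G.r0
  obtain ⟨⟨nA, nB⟩, s1, s2, s3⟩ := G.sizes hε A B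
  have tu := G.Tu A B
  have hA0 := nn_nonneg A
  have hB0 := nn_nonneg B
  obtain ⟨w, hw⟩ : ∃ w, w = dd A A + dd B B := ⟨_, rfl⟩
  have w0 : 0 ≤ w := by rw [hw]; exact add_nonneg (dd_self_nonneg _) (dd_self_nonneg _)
  have sw : (nn A + nn B) ^ 2 ≤ 2 * w := by
    rw [hw, ← nn_sq, ← nn_sq]; exact sum_sq
  have wA : dd A A ≤ w := by rw [hw]; linarith [dd_self_nonneg B]
  have wB : dd B B ≤ w := by rw [hw]; linarith [dd_self_nonneg A]
  have wAB : dd A A + dd B B = w := hw.symm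
  -- the fields
  have t1 : |tc σ (cv σ e' W γ) W z A| ≤ 9 / 2 * (K * G₀) * dd A A := by
    refine (tc_abs p1 A).trans ?_
    have a1 : nn (fun l => e' l z) * nn (fun l => γ l z) ≤ 1 * (K * G₀) :=
      mul_le_mul he hγ (nn_nonneg _) zero_le_one
    have a2 : nn A * nn (sU σ z A) ≤ 3 / 2 * dd A A := by
      rw [← nn_sq]
      have := mul_le_mul_of_nonneg_left nA hA0
      linarith
    have KG : 0 ≤ K * G₀ := mul_nonneg K0 G0
    have a3 := mul_le_mul (mul_le_mul_of_nonneg_left a1 (by norm_num : (0:ℝ) ≤ 3)) a2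
      (mul_nonneg hA0 (nn_nonneg _)) (by positivity)
    linarith
  have t2 : |tc τ (cv τ e' W γ') W z B| ≤ 9 / 2 * (K * G₀) * dd B B := by
    refine (tc_abs p2 B).trans ?_
    have a1 : nn (fun l => e' l z) * nn (fun l => γ' l z) ≤ 1 * (K * G₀) :=
      mul_le_mul he hγ' (nn_nonneg _) zero_le_one
    have a2 : nn B * nn (sU τ z B) ≤ 3 / 2 * dd B B := by
      rw [← nn_sq]
      have := mul_le_mul_of_nonneg_left nB hB0
      linarith
    have KG : 0 ≤ K * G₀ := mul_nonneg K0 G0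
    have a3 := mul_le_mul (mul_le_mul_of_nonneg_left a1 (by norm_num : (0:ℝ) ≤ 3)) a2
      (mul_nonneg hB0 (nn_nonneg _)) (by positivity)
    linarith
  rw [hT]
  rw [wAB] at s3 tu ⊢
  obtain ⟨X, hX⟩ : ∃ X, X = GA σ τ u z A B := ⟨_, rfl⟩
  obtain ⟨Y, hY⟩ : ∃ Y, Y = GA σ τ r z A B := ⟨_, rfl⟩
  obtain ⟨T, hTT⟩ : ∃ T, T = TH σ τ r z A B := ⟨_, rfl⟩
  obtain ⟨V, hV⟩ : ∃ V, V = TH σ τ u z A B := ⟨_, rfl⟩
  obtain ⟨s, hs⟩ : ∃ s, s = nn A + nn B := ⟨_, rfl⟩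
  rw [← hX, ← hs] at s1
  rw [← hY, ← hs] at s2
  rw [← hTT] at s3
  rw [← hV] at tu
  rw [← hX, ← hY, ← hTT, ← hV]
  rw [← hs] at sw
  have s0 : 0 ≤ s := by rw [hs]; linarith
  have KG : 0 ≤ K * G₀ := mul_nonneg K0 G0
  have Y2 : Y ^ 2 ≤ 11 * w := by
    have := pow_le_pow_left₀ (abs_nonneg _) s2 2
    rw [sq_abs] at this
    linarith
  have hTc : |T| ≤ 5 / c * w := s3.trans (mul_le_mul_of_nonneg_right
    (div_le_div_of_nonneg_left (by norm_num) c0 hr) w0)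
  have cw0 : 0 ≤ 5 / c * w := by positivity
  -- the terms
  have b1 : (Φ₁ + G₀) * (g * w) ≤ (Φ₁ + G₀) * V := mul_le_mul_of_nonneg_left tu (by linarith)
  have b2 : -(K * G₀ * (5 / c * w)) ≤ G₀ * (L * T) := by
    have : |G₀ * (L * T)| ≤ G₀ * (K * (5 / c * w)) := by
      rw [abs_mul, abs_mul, abs_of_nonneg G0, abs_of_nonneg L0]
      exact mul_le_mul_of_nonneg_left (mul_le_mul LK hTc (abs_nonneg _) K0) G0
    have := (abs_le.1 this).1
    linarith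
  have b3 : -(K * G₀ * (11 * w)) ≤ G₀ * (L₁ * Y ^ 2) := by
    have : |G₀ * (L₁ * Y ^ 2)| ≤ G₀ * (K * (11 * w)) := by
      rw [abs_mul, abs_mul, abs_of_nonneg G0, abs_of_nonneg (sq_nonneg Y)]
      exact mul_le_mul_of_nonneg_left (mul_le_mul L1 Y2 (sq_nonneg _) K0) G0
    have := (abs_le.1 this).1
    linarith
  have b4 : -(K * G₀ * (5 / c * w)) ≤ m₁ * T := by
    have : |m₁ * T| ≤ K * G₀ * (5 / c * w) := by
      rw [abs_mul]
      exact mul_le_mul h01 hTc (abs_nonneg _) KG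
    exact (abs_le.1 this).1
  have b5 : -(K * G₀ * (11 * w)) ≤ k₀₂ * Y ^ 2 := by
    have : |k₀₂ * Y ^ 2| ≤ K * G₀ * (11 * w) := by
      rw [abs_mul, abs_of_nonneg (sq_nonneg Y)]
      exact mul_le_mul h02 Y2 (sq_nonneg _) KG
    exact (abs_le.1 this).1
  have b6 : 0 ≤ k₂₀ * (X + L * Y) ^ 2 := mul_nonneg h20 (sq_nonneg _)
  have b7 : -(2 * (K * G₀) * ((1 + K) * (11 * w))) ≤ 2 * k₁₁ * ((X + L * Y) * Y) := by
    have h1 : |X + L * Y| ≤ (1 + K) * (9 / 4 * s) := by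
      refine (abs_add_le _ _).trans ?_
      rw [abs_mul, abs_of_nonneg L0]
      have := mul_le_mul LK s2 (abs_nonneg _) K0
      linarith
    have h2 : |(X + L * Y) * Y| ≤ (1 + K) * (11 * w) := by
      rw [abs_mul]
      have h3 := mul_le_mul h1 s2 (abs_nonneg _) (by positivity)
      have h4 : (1 + K) * (9 / 4 * s) * (9 / 4 * s) = (1 + K) * (81 / 16 * s ^ 2) := by ring
      rw [h4] at h3
      refine h3.trans (mul_le_mul_of_nonneg_left ?_ (by linarith))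
      linarith
    have h3 : |2 * k₁₁ * ((X + L * Y) * Y)| ≤ 2 * (K * G₀) * ((1 + K) * (11 * w)) := by
      rw [abs_mul, abs_mul, abs_two]
      exact mul_le_mul (mul_le_mul_of_nonneg_left h11 (by norm_num)) h2 (abs_nonneg _)
        (by positivity)
    exact (abs_le.1 h3).1
  have b8 := (abs_le.1 t1).1
  have b9 := (abs_le.1 t2).1
  have b10 : 9 / 2 * (K * G₀) * dd A A + 9 / 2 * (K * G₀) * dd B B = 9 / 2 * (K * G₀) * w := by
    rw [hw]; ring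
  have e1 : K * G₀ * (5 / c * w) = 5 * K / c * G₀ * w := by ring
  have e2 : (10 * K / c + 50 * K + 25 * K ^ 2) * G₀ * w =
      2 * (5 * K / c * G₀ * w) + 50 * (K * G₀ * w) + 25 * (K * K * G₀ * w) := by ring
  have e3 : 2 * (K * G₀) * ((1 + K) * (11 * w)) = 22 * (K * G₀ * w) + 22 * (K * K * G₀ * w) := by
    ring
  have p0 : 0 ≤ K * G₀ * w := mul_nonneg KG w0
  have p3 : 0 ≤ K * K * G₀ * w := by positivity
  rw [e1] at b2 b4
  rw [e3] at b7
  linarith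

end Vale.Agent.P088.R2.H747.A
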