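import Vale.Agent.P088.R2.H747.A.Prf
import Vale.Agent.P088.R2.H747.A.Cg

/-!
# P088, stage 3: zone A, the certificate for `r ≥ 15`
-/

open Set Filter
open scoped ContDiff Topology

noncomputable section

namespace Vale.Agent.P088.R2.H747.A

open Vale.Agent.P088.LR
open Vale.Agent.P088.HY hiding dd
open Vale.Agent.P088.R2.H961.GW Vale.Agent.P088.R2.H644 Vale.Agent.P088.R2.H960.W
open Vale.Agent.P088.R2.H644.Ch (TH GA)
open Vale.Agent.P088.R2.H551.E Vale.Agent.P088.R2.H747.SW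
open Vale.Agent.P088.R2.H31.EP Vale.Agent.P088.R2.H230.W
open Vale.Agent.P088.R2.H464.Cu (mid dif rq)

variable {n : ℕ} {q : Cst} {d : Pk n} {z : VV n}

/-- The far fields. -/
def cF₁ (q : Cst) (d : Pk n) : Fin n → VV n → ℝ :=
  cv d.sx (ee d) (d.W q) fun l z =>
    gF5 (D₂ q) (lS q) (d.u q) (rr d) (fun l => ee d l z) hh 20 l z

def cF₂ (q : Cst) (d : Pk n) : Fin n → VV n → ℝ :=
  cv d.sy (ee d) (d.W q) fun l z =>
    gF5 (D₂ q) (lS q) (d.u q) (rr d) (fun l => ee d l z) hh (-20) l z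

/-- **The certificate for `r ≥ 15`.** -/
theorem far_pt {ε g : ℝ} (he : 0 < q.e₁) (he1 : q.e₁ ≤ 1 / 1000000000) (hes : q.es ≤ 1 / 1000000000)
    (hr1 : 15 ≤ q.r₁) (hd : PkOk q d) (ok : d.sx.Ok univ 1) (ot : d.sy.Ok univ 1)
    (hop : IsOpen (OmB q d))
    (w : Wd (OmB q d) d.Φ (deriv d.Φ) (deriv (deriv d.Φ)) (lS q) (lS₁ q) (lS₂ q) (D₂ q)
        (d.u q) (rr d))
    (heq : Set.EqOn (d.W q) (wt d.Φ (lS q) (D₂ q) (d.u q) (rr d)) (OmB q d)) (hz : z ∈ OmB q d)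
    (G : Geo d.sx d.sy (d.u q) (rr d) (fun l => ee d l z) (fun l => hh l z) ε g z)
    (hε : ε ≤ 1 / 10000000000) (hr : 15 ≤ rr d z) (Φ0 : 0 ≤ deriv d.Φ (d.u q z))
    (p1 : 0 < dd (gr d.sx (d.W q) z) (gr d.sx (d.W q) z))
    (p2 : 0 < dd (gr d.sy (d.W q) z) (gr d.sy (d.W q) z)) (A B : Fin n → ℝ) :
    (GG q d z / (3300000 * rr d z) + NG q d z * g) * (dd A A + dd B B) +
        deriv (deriv d.Φ) (d.u q z) * GA d.sx d.sy (d.u q) z A B ^ 2 ≤
      TH d.sx d.sy (d.W q) z A B + tc d.sx (cF₁ q d) (d.W q) z A +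
        tc d.sy (cF₂ q d) (d.W q) z B := by
  have r0 := G.r0
  obtain ⟨l1, l2, l3, l4⟩ := prof_far he he1 hr
  obtain ⟨κ, om, k1, k2, k3, k4, k5, k6⟩ := slow_far hd hr hr1
  have G0 := GG_pos hd r0
  have ev : d.W q =ᶠ[𝓝 z] wt d.Φ (lS q) (D₂ q) (d.u q) (rr d) :=
    heq.eventuallyEq_of_mem (hop.mem_nhds hz)
  have okB : d.sx.Ok (OmB q d) 1 := Ok_mono ok hop (subset_univ _)
  have otB : d.sy.Ok (OmB q d) 1 := Ok_mono ot hop (subset_univ _)
  have hes0 : 0 ≤ q.es := (abs_nonneg om).trans k2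
  have hL2 : |lS₂ q (rr d z)| * rr d z = prE q.e₁ (rr d z) * prL q.e₁ (rr d z) := by
    unfold lS₂
    rw [abs_neg, abs_div, abs_of_pos r0, abs_of_nonneg (mul_nonneg l3 (by linarith))]
    field_simp
  have key := cert_far_wt6 (A := A) (B := B) (κ := κ) (om := om) (ε₁ := q.es) okB otB w hz G hε hes
    G0 (by show 1 / 10 ≤ prL q.e₁ (rr d z); linarith) (by show prL q.e₁ (rr d z) ≤ _; linarith)
    (k2.trans (by linarith)) (k3.trans (mul_le_mul_of_nonneg_right (by linarith) G0.le))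
    k1 k4 (by
      show |D₂ q 1 1 (ff q d z) (rr d z) - κ * GG q d z * om| ≤ _
      rw [k5, sub_self, abs_zero]
      positivity) k6 (by rw [hL2]; exact l4) (by linarith) Φ0
    (by rw [← gr_ev ev]; exact p1) (by rw [← gr_ev ev]; exact p2)
  rw [← TH_ev ev, ← tc_ev ev, ← tc_ev ev] at key
  have t1 : tc d.sx (cf d.sx (fun l => ee d l z) (wt d.Φ (lS q) (D₂ q) (d.u q) (rr d))
      (gF5 (D₂ q) (lS q) (d.u q) (rr d) (fun l => ee d l z) hh 20)) (d.W q) z A =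
      tc d.sx (cF₁ q d) (d.W q) z A := by
    refine tc_val (fun l => ?_) A
    show fl _ (gr d.sx (wt d.Φ (lS q) (D₂ q) (d.u q) (rr d)) z) _ l = fl _ _ _ l
    rw [gr_ev ev]
  have t2 : tc d.sy (cf d.sy (fun l => ee d l z) (wt d.Φ (lS q) (D₂ q) (d.u q) (rr d))
      (gF5 (D₂ q) (lS q) (d.u q) (rr d) (fun l => ee d l z) hh (-20))) (d.W q) z B =
      tc d.sy (cF₂ q d) (d.W q) z B := by
    refine tc_val (fun l => ?_) B
    show fl _ (gr d.sy (wt d.Φ (lS q) (D₂ q) (d.u q) (rr d)) z) _ l = fl _ _ _ l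
    rw [gr_ev ev]
  rw [t1, t2] at key
  exact key

end Vale.Agent.P088.R2.H747.A
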