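import Vale.Agent.P088.R2.H747.A.Prf
import Vale.Agent.P088.R2.H747.A.Cg

/-!
# P088, stage 3: zone A, the certificate for `c₀ / 2 ≤ r ≤ 17`
-/

open Set Filter
open scoped ContDiff Topology

noncomputable section

namespace Vale.Agent.P088.R2.H747.A

open Vale.Agent.P088.LR
open Vale.Agent.P088.HY hiding dd
open Vale.Agent.P088.R2.H961.GW Vale.Agent.P088.R2.H644 Vale.Agent.P088.R2.H960.W
open Vale.Agent.P088.R2.H644.Ch (TH GA)
open Vale.Agent.P088.R2.H551.E Vale.Agent.P088.R2.H747.SW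
open Vale.Agent.P088.R2.H31.EP Vale.Agent.P088.R2.H230.W
open Vale.Agent.P088.R2.H464.Cu (mid dif rq)
open Vale.Agent.P088.R2.H942.Iso.Near (Lp)

variable {n : ℕ} {q : Cst} {d : Pk n} {z : VV n}

/-- The near fields. -/
def cN₁ (q : Cst) (d : Pk n) : Fin n → VV n → ℝ :=
  cv d.sx (ee d) (d.W q) fun l z =>
    N.gN1 2 (D₂ q) (lS q) (d.u q) (rr d) (fun l => ee d l z) hh l z

def cN₂ (q : Cst) (d : Pk n) : Fin n → VV n → ℝ :=
  cv d.sy (ee d) (d.W q) fun l z =>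
    N.gN2 2 (D₂ q) (lS q) (d.u q) (rr d) (fun l => ee d l z) hh l z

theorem Lp_anti {c r : ℝ} (hc : 0 < c) (hr : c ≤ r) :
    1 / H942.Iso.Near.gp 2 r ≤ 1 / H942.Iso.Near.gp 2 c := by
  have h0 : 0 < r := hc.trans_le hr
  have h1 : 0 < H942.Iso.Near.gp 2 c := by
    unfold H942.Iso.Near.gp
    have := Real.one_lt_cosh.2 (mul_pos two_pos hc).ne'
    apply div_pos (by linarith) (by norm_num)
  refine one_div_le_one_div_of_le h1 ?_
  unfold H942.Iso.Near.gp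
  have : Real.cosh (2 * c) ≤ Real.cosh (2 * r) := by
    rw [Real.cosh_le_cosh, abs_of_pos (by linarith), abs_of_pos (by linarith)]
    linarith
  gcongr

/-- The constants of the near certificate. -/
theorem near_ex (n : ℕ) : ∃ μN εN CN : ℝ → ℝ, (∀ c, 0 < μN c) ∧ (∀ c, 0 < εN c) ∧ (∀ c, 0 < CN c) ∧
    ∀ (q : Cst) (d : Pk n) (z : VV n) (ε g : ℝ), 0 < q.c₀ → 0 < q.e₁ → 17 < q.r₁ * Real.exp (-1) →
      PkOk q d → d.sx.Ok univ 1 → d.sy.Ok univ 1 → IsOpen (OmB q d) →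
      Wd (OmB q d) d.Φ (deriv d.Φ) (deriv (deriv d.Φ)) (lS q) (lS₁ q) (lS₂ q) (D₂ q)
        (d.u q) (rr d) →
      Set.EqOn (d.W q) (wt d.Φ (lS q) (D₂ q) (d.u q) (rr d)) (OmB q d) → z ∈ OmB q d →
      Geo d.sx d.sy (d.u q) (rr d) (fun l => ee d l z) (fun l => hh l z) ε g z →
      ε ≤ εN q.c₀ → rr d z ≤ 17 → 0 ≤ deriv d.Φ (d.u q z) →
      0 < dd (gr d.sx (d.W q) z) (gr d.sx (d.W q) z) →
      0 < dd (gr d.sy (d.W q) z) (gr d.sy (d.W q) z) →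
      CN q.c₀ * (ε * NG q d z) ≤ nn (gr d.sx (d.W q) z) →
      CN q.c₀ * (ε * NG q d z) ≤ nn (gr d.sy (d.W q) z) → ∀ A B : Fin n → ℝ,
      (2 * μN q.c₀ * GG q d z + NG q d z * g) * (dd A A + dd B B) +
        deriv (deriv d.Φ) (d.u q z) * GA d.sx d.sy (d.u q) z A B ^ 2 ≤
      TH d.sx d.sy (d.W q) z A B + tc d.sx (cN₁ q d) (d.W q) z A +
        tc d.sy (cN₂ q d) (d.W q) z B := by
  have H : ∀ c : ℝ, ∃ μ ε₀ C : ℝ, 0 < μ ∧ 0 < ε₀ ∧ 0 < C ∧ (0 < c → ∀ (q : Cst) (d : Pk n)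
      (z : VV n) (ε g : ℝ), q.c₀ = c → 0 < q.e₁ → 17 < q.r₁ * Real.exp (-1) →
      PkOk q d → d.sx.Ok univ 1 → d.sy.Ok univ 1 → IsOpen (OmB q d) →
      Wd (OmB q d) d.Φ (deriv d.Φ) (deriv (deriv d.Φ)) (lS q) (lS₁ q) (lS₂ q) (D₂ q)
        (d.u q) (rr d) →
      Set.EqOn (d.W q) (wt d.Φ (lS q) (D₂ q) (d.u q) (rr d)) (OmB q d) → z ∈ OmB q d →
      Geo d.sx d.sy (d.u q) (rr d) (fun l => ee d l z) (fun l => hh l z) ε g z →
      ε ≤ ε₀ → rr d z ≤ 17 → 0 ≤ deriv d.Φ (d.u q z) →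
      0 < dd (gr d.sx (d.W q) z) (gr d.sx (d.W q) z) →
      0 < dd (gr d.sy (d.W q) z) (gr d.sy (d.W q) z) →
      C * (ε * NG q d z) ≤ nn (gr d.sx (d.W q) z) →
      C * (ε * NG q d z) ≤ nn (gr d.sy (d.W q) z) → ∀ A B : Fin n → ℝ,
      (2 * μ * GG q d z + NG q d z * g) * (dd A A + dd B B) +
        deriv (deriv d.Φ) (d.u q z) * GA d.sx d.sy (d.u q) z A B ^ 2 ≤
      TH d.sx d.sy (d.W q) z A B + tc d.sx (cN₁ q d) (d.W q) z A +
        tc d.sy (cN₂ q d) (d.W q) z B) := by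
    intro c
    by_cases hc : 0 < c
    swap
    · exact ⟨1, 1, 1, one_pos, one_pos, one_pos, fun h => absurd h hc⟩
    have hc2 : 0 < c / 2 := by positivity
    obtain ⟨μ, hμ, ε₀, hε₀, C, hC, cert⟩ := N.cert_near_wt (E := VV n) (ι := Fin n) (θ := 2)
      (c0 := c / 2) (r1 := 17) (Lz 2 (c / 2) + 1 / H942.Iso.Near.gp 2 (c / 2)) (by norm_num)
      (by norm_num) hc2
    refine ⟨μ, ε₀, C, hμ, hε₀, hC, ?_⟩
    intro _ q d z ε g hq he hr1 hd ok ot hop w heq hz G hε hr Φ0 p1 p2 q1 q2 A B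
    subst hq
    have r0 := G.r0
    have hrc : q.c₀ / 2 ≤ rr d z := by
      have h1 := hz.1
      unfold rr
      exact Real.le_sqrt_of_sq_le h1.le
    have hrp : rr d z ≤ rp := by unfold rp; linarith
    obtain ⟨l1, l2⟩ := prof_near he r0 hrp
    obtain ⟨b1, b2⟩ := prof_bd he hc2 hrc
    obtain ⟨s20, s01, s11, s02, sG⟩ := slow_near hd r0 (by linarith)
    have G0 := GG_pos hd r0
    have gp0 : 0 < 1 / H942.Iso.Near.gp 2 (rr d z) := by
      have : 0 < H942.Iso.Near.gp 2 (rr d z) := by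
        unfold H942.Iso.Near.gp
        have := Real.one_lt_cosh.2 (mul_pos two_pos r0).ne'
        apply div_pos (by linarith) (by norm_num)
      positivity
    have gpc : 0 < 1 / H942.Iso.Near.gp 2 (q.c₀ / 2) := gp0.trans_le (Lp_anti hc2 hrc)
    have ev : d.W q =ᶠ[𝓝 z] wt d.Φ (lS q) (D₂ q) (d.u q) (rr d) :=
      heq.eventuallyEq_of_mem (hop.mem_nhds hz)
    have hL2 : lS₂ q (rr d z) = -(1 / H942.Iso.Near.gp 2 (rr d z)) := by
      unfold lS₂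
      rw [l2]
    have hL1 : lS₁ q (rr d z) = 2 * Lp 2 (rr d z) := l1
    have okB : d.sx.Ok (OmB q d) 1 := Ok_mono ok hop (subset_univ _)
    have otB : d.sy.Ok (OmB q d) 1 := Ok_mono ot hop (subset_univ _)
    have key := cert d.sx d.sy (OmB q d) 1 1 d.Φ (deriv d.Φ) (deriv (deriv d.Φ)) (lS q) (lS₁ q)
      (lS₂ q) (D₂ q) (d.u q) (rr d) (fun l => ee d l z) hh z ε g okB otB w hz G hε hrc hr G0
      s20 s01 s11 s02 (by show 0 ≤ prL q.e₁ (rr d z); linarith)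
      (by show prL q.e₁ (rr d z) ≤ _; linarith)
      (by rw [hL2, abs_neg, abs_of_pos gp0]
          have := Lp_anti hc2 hrc
          have h4 : 0 ≤ Lz 2 (q.c₀ / 2) := by linarith
          linarith)
      (by rw [hL1]
          have h4 : 0 ≤ 2 * Lp 2 (rr d z) := by rw [← hL1]; show 0 ≤ prL q.e₁ (rr d z); linarith
          have h5 : 0 ≤ 2 * Lp 2 (rr d z) * ε₀ := by positivity
          linarith)
      (by rw [hL1, sub_self, abs_zero]; exact hε₀.le)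
      (by rw [hL2, neg_neg]; linarith) Φ0
      (by rw [← gr_ev ev]; exact p1) (by rw [← gr_ev ev]; exact p2)
      (by rw [← gr_ev ev]; exact q1) (by rw [← gr_ev ev]; exact q2) A B
    rw [← TH_ev ev, ← tc_ev ev, ← tc_ev ev] at key
    have t1 : tc d.sx (cf d.sx (fun l => ee d l z) (wt d.Φ (lS q) (D₂ q) (d.u q) (rr d))
        (N.gN1 2 (D₂ q) (lS q) (d.u q) (rr d) (fun l => ee d l z) hh)) (d.W q) z A =
        tc d.sx (cN₁ q d) (d.W q) z A := by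
      refine tc_val (fun l => ?_) A
      show fl _ (gr d.sx (wt d.Φ (lS q) (D₂ q) (d.u q) (rr d)) z) _ l = fl _ _ _ l
      rw [gr_ev ev]
    have t2 : tc d.sy (cf d.sy (fun l => ee d l z) (wt d.Φ (lS q) (D₂ q) (d.u q) (rr d))
        (N.gN2 2 (D₂ q) (lS q) (d.u q) (rr d) (fun l => ee d l z) hh)) (d.W q) z B =
        tc d.sy (cN₂ q d) (d.W q) z B := by
      refine tc_val (fun l => ?_) B
      show fl _ (gr d.sy (wt d.Φ (lS q) (D₂ q) (d.u q) (rr d)) z) _ l = fl _ _ _ l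
      rw [gr_ev ev]
    rw [t1, t2] at key
    exact key
  choose μN εN CN h1 h2 h3 h4 using H
  refine ⟨μN, εN, CN, h1, h2, h3, ?_⟩
  intro q d z ε g hc
  exact h4 q.c₀ hc q d z ε g rfl

end Vale.Agent.P088.R2.H747.A
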