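import Vale.Agent.P088.R2.H768.A.RowWd
import Vale.Agent.P088.R2.H551.E.Br
import Vale.Agent.P088.R2.H509.EP.Lit2
import Vale.Agent.P088.R2.H747.A.CrtN
import Vale.Agent.P088.R2.H747.A.CrtF
import Vale.Agent.P088.R2.H747.A.CrtD

/-!
# P088, stage 3: zone A, row A-CERT
-/

open Set Filter
open scoped ContDiff Topology

noncomputable section

namespace Vale.Agent.P088.R2.H747.A

open Vale.Agent.P088.LR
open Vale.Agent.P088.HY hiding dd
open Vale.Agent.P088.R2.H961.GW Vale.Agent.P088.R2.H644 Vale.Agent.P088.R2.H960.W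
open Vale.Agent.P088.R2.H644.Ch (TH GA)
open Vale.Agent.P088.R2.H551.E Vale.Agent.P088.R2.H747.SW
open Vale.Agent.P088.R2.H31.EP Vale.Agent.P088.R2.H230.W
open Vale.Agent.P088.R2.H464.Cu (mid dif rq)
open Vale.Agent.P088.R2.H983.Fl (c1e c1h c2e c2h near_cf Cf)

variable {n : ℕ} {q : Cst} {d : Pk n} {z : VV n}

/-! ## Facts -/

theorem sx_ok (hd : PkOk q d) : d.sx.Ok univ 1 := fx_ok hd.rg.sm₁ hd.rg.sy₁ isOpen_univ

theorem sy_ok (hd : PkOk q d) : d.sy.Ok univ 1 := fy_ok hd.rg.sm₂ hd.rg.sy₂ isOpen_univ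

theorem pb_nonneg (r : ℝ) : 0 ≤ pb r := by
  unfold pb
  linarith [Real.smoothTransition.le_one (r - 15)]

theorem pb_le_one (r : ℝ) : pb r ≤ 1 := by
  unfold pb
  linarith [Real.smoothTransition.nonneg (r - 15)]

theorem pb_one {r : ℝ} (h : r ≤ 15) : pb r = 1 := by
  unfold pb
  rw [Real.smoothTransition.zero_of_nonpos (by linarith), sub_zero]

theorem pb_zero {r : ℝ} (h : 16 ≤ r) : pb r = 0 := by
  unfold pb
  rw [Real.smoothTransition.one_of_one_le (by linarith), sub_self]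

theorem blend {p r T a₁ a₂ b₁ b₂ Y : ℝ} (p0 : 0 ≤ p) (p1 : p ≤ 1) (h1 : r ≤ 15 → p = 1)
    (h2 : 16 ≤ r → p = 0) (hN : r ≤ 17 → Y ≤ T + a₁ + a₂) (hF : 15 ≤ r → Y ≤ T + b₁ + b₂) :
    Y ≤ T + (p * a₁ + (1 - p) * b₁) + (p * a₂ + (1 - p) * b₂) := by
  rcases le_or_gt r 15 with h | h
  · rw [h1 h]
    linarith [hN (by linarith)]
  · have F := hF h.le
    rcases le_or_gt 16 r with h' | h'
    · rw [h2 h']
      linarith
    · have N := hN (by linarith)
      have e1 := mul_le_mul_of_nonneg_left N p0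
      have e2 := mul_le_mul_of_nonneg_left F (sub_nonneg.2 p1)
      linarith

theorem Wx2_dd : Wx2 q d z = dd (gr d.sx (d.W q) z) (gr d.sx (d.W q) z) := by
  unfold Wx2 gr dd
  exact Finset.sum_congr rfl fun i _ => sq _

theorem Wy2_dd : Wy2 q d z = dd (gr d.sy (d.W q) z) (gr d.sy (d.W q) z) := by
  unfold Wy2 gr dd
  exact Finset.sum_congr rfl fun i _ => sq _

theorem rr_pos (hc : 0 < q.c₀) (hz : z ∈ OmB q d) : q.c₀ / 2 ≤ rr d z ∧ 0 < rr d z := by
  have h1 : q.c₀ / 2 ≤ rr d z := Real.le_sqrt_of_sq_le hz.1.le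
  exact ⟨h1, by linarith⟩

theorem rr_sq (hz : z ∈ OmB q d) : rr d z ^ 2 = d.r2 z :=
  Real.sq_sqrt ((sq_nonneg _).trans hz.1.le)

theorem NG_ge (hd : PkOk q d) (hM : 1 ≤ q.M₀) (r0 : 0 < rr d z) :
    1 ≤ d.N q z ∧ 0 < GG q d z ∧ 1 ≤ NG q d z := by
  have h1 : q.M₀ ≤ d.N q z := hd.N_ge _
  have h2 := GG_pos hd r0
  refine ⟨hM.trans h1, h2, ?_⟩
  unfold NG
  linarith

/-- The gradients on zone A. -/
theorem gr_big (hd : PkOk q d) (hM : 1 ≤ q.M₀) (hc : 0 < q.c₀) (hT : 0 < q.rT)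
    (hz : z ∈ OmA q d) :
    0 < dd (gr d.sx (d.W q) z) (gr d.sx (d.W q) z) ∧
    0 < dd (gr d.sy (d.W q) z) (gr d.sy (d.W q) z) ∧
    q.rT / 8 * NG q d z ≤ nn (gr d.sx (d.W q) z) ∧
    q.rT / 8 * NG q d z ≤ nn (gr d.sy (d.W q) z) := by
  obtain ⟨hB, h1, h2⟩ := hz
  have r0 := (rr_pos hc hB).2
  obtain ⟨-, -, g1⟩ := NG_ge hd hM r0
  have t0 : 0 < q.rT / 8 * NG q d z := by positivity
  rw [Wx2_dd] at h1
  rw [Wy2_dd] at h2
  have t1 : 0 < (q.rT / 8 * NG q d z) ^ 2 := by positivity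
  refine ⟨t1.trans h1, t1.trans h2, ?_, ?_⟩
  · rw [← nn_sq] at h1
    exact (sq_le_sq₀ t0.le (nn_nonneg _)).1 h1.le
  · rw [← nn_sq] at h2
    exact (sq_le_sq₀ t0.le (nn_nonneg _)).1 h2.le

/-! ## The fields are combinations of the near and the far fields -/

theorem tc_cA₁ (A : Fin n → ℝ) : tc d.sx (cA₁ q d) (d.W q) z A =
    pb (rr d z) * tc d.sx (cN₁ q d) (d.W q) z A +
      (1 - pb (rr d z)) * tc d.sx (cF₁ q d) (d.W q) z A :=
  tc_mix (ee d) (ga₁ q d)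
    (fun l z => N.gN1 2 (D₂ q) (lS q) (d.u q) (rr d) (fun l => ee d l z) hh l z)
    (fun l z => gF5 (D₂ q) (lS q) (d.u q) (rr d) (fun l => ee d l z) hh 20 l z)
    (pb (rr d z)) (fun _ => rfl) A

theorem tc_cA₂ (A : Fin n → ℝ) : tc d.sy (cA₂ q d) (d.W q) z A =
    pb (rr d z) * tc d.sy (cN₂ q d) (d.W q) z A +
      (1 - pb (rr d z)) * tc d.sy (cF₂ q d) (d.W q) z A :=
  tc_mix (ee d) (ga₂ q d)
    (fun l z => N.gN2 2 (D₂ q) (lS q) (d.u q) (rr d) (fun l => ee d l z) hh l z)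
    (fun l z => gF5 (D₂ q) (lS q) (d.u q) (rr d) (fun l => ee d l z) hh (-20) l z)
    (pb (rr d z)) (fun _ => rfl) A

/-- The bound of the covectors, for all `q` with `c₀ = c`. -/
theorem ga_ex : ∃ K : ℝ → ℝ, (∀ c, 1 ≤ K c) ∧ ∀ (n : ℕ) (q : Cst) (d : Pk n) (z : VV n),
    0 < q.c₀ → q.c₀ / 2 ≤ rr d z → 0 ≤ GG q d z →
    dd (fun l => ee d l z) (fun l => ee d l z) = 1 → dd (fun l => hh l z) (fun l => hh l z) = 1 →
    nn (fun l => ga₁ q d l z) ≤ K q.c₀ * (GG q d z / rr d z) ∧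
    nn (fun l => ga₂ q d l z) ≤ K q.c₀ * (GG q d z / rr d z) := by
  have H : ∀ c : ℝ, ∃ C : ℝ, 0 < C ∧ (0 < c → Cf (c1e 2) (c1h 2) (H942.Iso.Near.KK (c / 2) 16) C ∧
      Cf (c2e 2) (c2h 2) (H942.Iso.Near.KK (c / 2) 16) C) := by
    intro c
    by_cases hc : 0 < c
    · obtain ⟨C, h1, h2⟩ := near_cf (θ := 2) (c0 := c / 2) (r1 := 16) (by norm_num) (by norm_num)
        (by positivity)
      exact ⟨C, h1.C0, fun _ => ⟨h1, h2⟩⟩
    · exact ⟨1, one_pos, fun h => absurd h hc⟩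
  choose C C0 hC using H
  refine ⟨fun c => 128 * C c + 1, fun c => by linarith [C0 c], ?_⟩
  intro n q d z hc hr G0 he hh'
  obtain ⟨k1, k2⟩ := hC q.c₀ hc
  have r0 : 0 < rr d z := by linarith
  have hehm := N.eh_mem he hh'
  obtain ⟨p, hp⟩ : ∃ p, p = pb (rr d z) := ⟨_, rfl⟩
  have p0 : 0 ≤ p := by rw [hp]; exact pb_nonneg _
  have p1 : p ≤ 1 := by rw [hp]; exact pb_le_one _
  have Gr : 0 ≤ GG q d z / rr d z := by positivity
  -- the near part
  have near : ∀ g : Fin n → ℝ, (rr d z ≤ 16 → nn g ≤ 2 * C q.c₀) →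
      p * nn ((4 * GG q d z) • g) ≤ 128 * C q.c₀ * (GG q d z / rr d z) := by
    intro g hg
    rcases le_or_gt (rr d z) 16 with h | h
    · have h1 := hg h
      rw [nn_smul, abs_of_nonneg (by positivity)]
      have h2 : 4 * GG q d z * nn g ≤ 4 * GG q d z * (2 * C q.c₀) :=
        mul_le_mul_of_nonneg_left h1 (by positivity)
      have h3 : GG q d z ≤ 16 * (GG q d z / rr d z) := by
        rw [← mul_div_assoc, le_div_iff₀ r0]
        nlinarith
      have h4 : p * (4 * GG q d z * nn g) ≤ 1 * (4 * GG q d z * nn g) :=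
        mul_le_mul_of_nonneg_right p1 (mul_nonneg (by positivity) (nn_nonneg _))
      have h5 : 8 * C q.c₀ * GG q d z ≤ 8 * C q.c₀ * (16 * (GG q d z / rr d z)) :=
        mul_le_mul_of_nonneg_left h3 (by have := C0 q.c₀; positivity)
      linarith
    · have : p = 0 := by rw [hp]; exact pb_zero h.le
      rw [this, zero_mul]
      have := C0 q.c₀
      positivity
  -- the far part
  have far : ∀ s : ℝ, |s| ≤ 20 → (1 - p) * nn (fun l => gF5 (D₂ q) (lS q) (d.u q) (rr d)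
      (fun l => ee d l z) hh s l z) ≤ GG q d z / rr d z := by
    intro s hs
    have e1 : (fun l => gF5 (D₂ q) (lS q) (d.u q) (rr d) (fun l => ee d l z) hh s l z) =
        (GG q d z / (300000 * rr d z)) • (s • (fun l => hh l z) + fun l => ee d l z) := by
      funext l
      rfl
    rw [e1, nn_smul, abs_of_nonneg (by positivity)]
    have h1 : nn (s • (fun l => hh l z) + fun l => ee d l z) ≤ 21 := by
      refine (nn_add_le _ _).trans ?_
      rw [nn_smul, nn_one he, nn_one hh']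
      linarith
    have h2 : GG q d z / (300000 * rr d z) * nn (s • (fun l => hh l z) + fun l => ee d l z) ≤
        GG q d z / (300000 * rr d z) * 21 := mul_le_mul_of_nonneg_left h1 (by positivity)
    have h3 : GG q d z / (300000 * rr d z) = GG q d z / rr d z / 300000 := by
      field_simp
    rw [h3] at h2 ⊢
    have h4 : (1 - p) * (GG q d z / rr d z / 300000 * nn (s • (fun l => hh l z) +
        fun l => ee d l z)) ≤ 1 * (GG q d z / rr d z / 300000 * nn (s • (fun l => hh l z) +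
        fun l => ee d l z)) := mul_le_mul_of_nonneg_right (by linarith)
      (mul_nonneg (by positivity) (nn_nonneg _))
    linarith
  have mem : rr d z ≤ 16 → (rr d z, dd (fun l => ee d l z) (fun l => hh l z)) ∈
      H942.Iso.Near.KK (q.c₀ / 2) 16 := fun h => ⟨⟨hr, h⟩, hehm⟩
  constructor
  · have e1 : (fun l => ga₁ q d l z) =
        p • ((4 * GG q d z) • N.g1 2 (rr d z) (fun l => ee d l z) fun l => hh l z) +
        (1 - p) • fun l => gF5 (D₂ q) (lS q) (d.u q) (rr d) (fun l => ee d l z) hh 20 l z := by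
      funext l
      rw [hp]
      rfl
    rw [e1]
    refine (nn_add_le _ _).trans ?_
    rw [nn_smul p, nn_smul (1 - p), abs_of_nonneg p0, abs_of_nonneg (sub_nonneg.2 p1)]
    have a1 := near (N.g1 2 (rr d z) (fun l => ee d l z) fun l => hh l z) fun h =>
      N.nn_comb he hh' (k1.ba _ (mem h)) (k1.bb _ (mem h))
    have a2 := far 20 (by norm_num)
    linarith
  · have e1 : (fun l => ga₂ q d l z) =
        p • ((4 * GG q d z) • N.g2 2 (rr d z) (fun l => ee d l z) fun l => hh l z) +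
        (1 - p) • fun l => gF5 (D₂ q) (lS q) (d.u q) (rr d) (fun l => ee d l z) hh (-20) l z := by
      funext l
      rw [hp]
      rfl
    rw [e1]
    refine (nn_add_le _ _).trans ?_
    rw [nn_smul p, nn_smul (1 - p), abs_of_nonneg p0, abs_of_nonneg (sub_nonneg.2 p1)]
    have a1 := near (N.g2 2 (rr d z) (fun l => ee d l z) fun l => hh l z) fun h =>
      N.nn_comb he hh' (k2.ba _ (mem h)) (k2.bb _ (mem h))
    have a2 := far (-20) (by norm_num)
    linarith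

/-! ## Deep points -/

/-- The certificate at the deep points. -/
theorem deep_all {Kd G₁ μ ε a : ℝ} (c : H768.A.Cn n q) (hσ : 0 < q.σ) (hc : 0 < q.c₀)
    (hT : 0 < q.rT) (hd : PkOk q d) (K1 : 1 ≤ Kd) (hμ : 0 ≤ μ)
    (hop : IsOpen (OmB q d))
    (w : Wd (OmB q d) d.Φ (deriv d.Φ) (deriv (deriv d.Φ)) (lS q) (lS₁ q) (lS₂ q) (D₂ q)
        (d.u q) (rr d))
    (heq : Set.EqOn (d.W q) (wt d.Φ (lS q) (D₂ q) (d.u q) (rr d)) (OmB q d)) (hz : z ∈ OmA q d)
    (G : GeoW d.sx d.sy (d.u q) (rr d) (fun l => ee d l z) (fun l => hh l z) ε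
      (q.σ / (40 * q.R)) z) (hε : ε ≤ 1 / 2)
    (L1 : lS₁ q (rr d z) ≤ Kd) (L2 : |lS₂ q (rr d z)| ≤ Kd) (k02 : |slB 0 2| ≤ Kd)
    (k11 : 2 ≤ Kd)
    (g1 : nn (fun l => ga₁ q d l z) ≤ Kd * GG q d z)
    (g2 : nn (fun l => ga₂ q d l z) ≤ Kd * GG q d z)
    (hG₁ : G₁ = 10 * Kd / (q.c₀ / 2) + 50 * Kd + 25 * Kd ^ 2)
    (ha : (G₁ + 8 * μ / q.c₀) * a ≤ 3 * q.σ / 200) (hGa : GG q d z ≤ a / q.R)
    (A B : Fin n → ℝ) :
    4 * ((μ * (GG q d z / rr d z) + q.σ / (400 * q.R) * NG q d z) * (dd A A + dd B B)) ≤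
      TH d.sx d.sy (d.W q) z A B + tc d.sx (cA₁ q d) (d.W q) z A +
        tc d.sy (cA₂ q d) (d.W q) z B := by
  have hB := hz.1
  obtain ⟨hr, r0⟩ := rr_pos hc hB
  obtain ⟨n1, G0, ng⟩ := NG_ge hd c.M1 r0
  obtain ⟨p1, p2, -, -⟩ := gr_big hd c.M1 hc hT hz
  have R0 : 0 < q.R := one_pos.trans_le c.R1
  have ev : d.W q =ᶠ[𝓝 z] wt d.Φ (lS q) (D₂ q) (d.u q) (rr d) :=
    heq.eventuallyEq_of_mem (hop.mem_nhds hB)
  have okB : d.sx.Ok (OmB q d) 1 := Ok_mono (sx_ok hd) hop (subset_univ _)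
  have otB : d.sy.Ok (OmB q d) 1 := Ok_mono (sy_ok hd) hop (subset_univ _)
  have es1 : q.es ≤ 1 := c.s1.trans (by norm_num)
  have hG : GG q d z = D₂ q 1 0 (ff q d z) (rr d z) := rfl
  have d20 : D₂ q 2 0 (ff q d z) (rr d z) ≤ 6 / 5 * GG q d z := hd.sl.kap_le (ff q d z, rr d z) r0
  have d20' : 0 < D₂ q 2 0 (ff q d z) (rr d z) := hd.sl.g_pos (ff q d z, rr d z) r0
  have h01 : |D₂ q 0 1 (ff q d z) (rr d z)| ≤ Kd * GG q d z := by
    have h := hd.sl.mu (ff q d z, rr d z) r0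
    exact h.trans (mul_le_mul_of_nonneg_right (es1.trans K1) G0.le)
  have h11 : |D₂ q 1 1 (ff q d z) (rr d z)| ≤ Kd * GG q d z := by
    have h := hd.sl.om (ff q d z, rr d z) r0
    have h2 : q.es * D₂ q 2 0 (ff q d z) (rr d z) ≤ 1 * (6 / 5 * GG q d z) :=
      mul_le_mul es1 d20 d20'.le zero_le_one
    have h3 : 2 * GG q d z ≤ Kd * GG q d z := mul_le_mul_of_nonneg_right k11 G0.le
    have h4 : |D₂ q 1 1 (ff q d z) (rr d z)| ≤ q.es * D₂ q 2 0 (ff q d z) (rr d z) := h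
    linarith
  have h02 : |D₂ q 0 2 (ff q d z) (rr d z)| ≤ Kd * GG q d z := by
    have h : |D₂ q 0 2 (ff q d z) (rr d z)| ≤ |slB 0 2| * GG q d z :=
      H768.A.D_le hd r0 0 2 (by norm_num)
    exact h.trans (mul_le_mul_of_nonneg_right k02 G0.le)
  have L0 : 0 ≤ lS₁ q (rr d z) := by
    have := (H768.A.Sl1_pos c.e0 (rr d z)).le
    exact this
  have key := deep_pt (K := Kd) (c := q.c₀ / 2) (Φ₁ := deriv d.Φ (d.u q z))
    (Φ₂ := deriv (deriv d.Φ) (d.u q z)) (G₀ := GG q d z) (L := lS₁ q (rr d z))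
    (L₁ := lS₂ q (rr d z)) (m₁ := D₂ q 0 1 (ff q d z) (rr d z))
    (k₂₀ := D₂ q 2 0 (ff q d z) (rr d z)) (k₁₁ := D₂ q 1 1 (ff q d z) (rr d z))
    (k₀₂ := D₂ q 0 2 (ff q d z) (rr d z)) (e' := ee d) (γ := ga₁ q d) (γ' := ga₂ q d)
    G hε G0.le (by have : (0:ℝ) ≤ d.N q z := by linarith
                   exact this) (by linarith) (by positivity) hr L0 L1 L2 h01 h11 h02 d20'.le
    (nn_one G.ee).le g1 g2 p1 p2 A B
    (by rw [TH_ev ev]; exact TH_wt okB otB w hB A B)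
  have k0 : 0 < deriv (deriv d.Φ) (d.u q z) := hd.top.k0 _
  have w0 : 0 ≤ dd A A + dd B B := add_nonneg (dd_self_nonneg _) (dd_self_nonneg _)
  have ga : 0 ≤ deriv (deriv d.Φ) (d.u q z) * GA d.sx d.sy (d.u q) z A B ^ 2 :=
    mul_nonneg k0.le (sq_nonneg _)
  rw [← hG₁] at key
  have G₁0 : 0 ≤ G₁ := by rw [hG₁]; positivity
  -- the loss
  have l1 : μ * (GG q d z / rr d z) ≤ 2 * μ / q.c₀ * GG q d z := by
    have : GG q d z / rr d z ≤ GG q d z / (q.c₀ / 2) :=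
      div_le_div_of_nonneg_left G0.le (by positivity) hr
    calc μ * (GG q d z / rr d z) ≤ μ * (GG q d z / (q.c₀ / 2)) :=
          mul_le_mul_of_nonneg_left this hμ
      _ = _ := by field_simp
  have l2 : (G₁ + 8 * μ / q.c₀) * GG q d z ≤ (G₁ + 8 * μ / q.c₀) * (a / q.R) :=
    mul_le_mul_of_nonneg_left hGa (by positivity)
  have l3 : (G₁ + 8 * μ / q.c₀) * (a / q.R) ≤ 3 * q.σ / 200 / q.R := by
    rw [← mul_div_assoc]
    exact div_le_div_of_nonneg_right ha R0.le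
  have l4 : 3 * q.σ / 200 / q.R ≤ 3 * q.σ / 200 / q.R * NG q d z := by
    have : 0 ≤ 3 * q.σ / 200 / q.R := by positivity
    exact le_mul_of_one_le_right this ng
  have l5 : 4 * (μ * (GG q d z / rr d z) + q.σ / (400 * q.R) * NG q d z) ≤
      (d.N q z + GG q d z) * (q.σ / (40 * q.R)) - G₁ * GG q d z := by
    have e1 : (d.N q z + GG q d z) = NG q d z := rfl
    have e2 : q.σ / (400 * q.R) = q.σ / q.R / 400 := by field_simp
    have e3 : q.σ / (40 * q.R) = q.σ / q.R / 40 := by field_simp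
    have e4 : 3 * q.σ / 200 / q.R = 3 / 200 * (q.σ / q.R) := by field_simp
    rw [e1, e2, e3]
    rw [e4] at l4
    rw [e4] at l3
    have e5 : 2 * μ / q.c₀ * GG q d z * 4 = 8 * μ / q.c₀ * GG q d z := by ring
    have l7 : G₁ * GG q d z + 4 * (μ * (GG q d z / rr d z)) ≤
        3 / 200 * (q.σ / q.R) * NG q d z := by
      linarith
    have l8 : 4 * (μ * (GG q d z / rr d z) + q.σ / q.R / 400 * NG q d z) =
        4 * (μ * (GG q d z / rr d z)) + 1 / 100 * (q.σ / q.R) * NG q d z := by ring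
    rw [l8]
    linarith
  have l6 := mul_le_mul_of_nonneg_right l5 w0
  have e7 : (deriv d.Φ (d.u q z) + GG q d z) = d.N q z + GG q d z := rfl
  rw [e7] at key
  have key' : ((d.N q z + GG q d z) * (q.σ / (40 * q.R)) - G₁ * GG q d z) *
      (dd A A + dd B B) ≤ TH d.sx d.sy (d.W q) z A B + tc d.sx (cA₁ q d) (d.W q) z A +
        tc d.sy (cA₂ q d) (d.W q) z B := le_trans (by linarith) key
  linarith

end Vale.Agent.P088.R2.H747.A
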