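import Vale.Agent.P088.R2.H747.A.Crt

/-!
# P088, stage 3: zone A, row A-CERT (end)
-/

open Set Filter
open scoped ContDiff Topology

noncomputable section

namespace Vale.Agent.P088.R2.H747.A

open Vale.Agent.P088.LR
open Vale.Agent.P088.HY hiding dd
open Vale.Agent.P088.R2.H961.GW Vale.Agent.P088.R2.H644 Vale.Agent.P088.R2.H960.W
open Vale.Agent.P088.R2.H644.Ch (TH GA)
open Vale.Agent.P088.R2.H551.E Vale.Agent.P088.R2.H747.SW
open Vale.Agent.P088.R2.H31.EP Vale.Agent.P088.R2.H230.W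
open Vale.Agent.P088.R2.H464.Cu (mid dif rq)

variable {n : ℕ} {q : Cst} {d : Pk n} {z : VV n}

/-- The powers of `β` are small. -/
theorem be_small (C μ : Cst → ℝ) (hμ : ∀ q, 0 < μ q) : EvC fun q =>
    C q.b_M₀ * Real.log q.M₀ ^ (-(1 / 2) : ℝ) ≤ μ q.b_M₀ :=
  EvC.at_M₀ (fun q t => C q * Real.log t ^ (-(1 / 2) : ℝ) ≤ μ q) fun q => by
    have h1 : Tendsto (fun t : ℝ => Real.log t ^ (-(1 / 2) : ℝ)) atTop (𝓝 0) :=
      (tendsto_rpow_neg_atTop (by norm_num : (0:ℝ) < 1 / 2)).comp Real.tendsto_log_atTop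
    have h2 := h1.const_mul (C q)
    rw [mul_zero] at h2
    exact h2.eventually_le_const (hμ q)

theorem exp_neg_one_ge : 1 / 3 ≤ Real.exp (-1) := by
  have := Real.exp_one_lt_d9
  rw [Real.exp_neg, one_div, inv_le_inv₀ (by norm_num) (Real.exp_pos _)]
  linarith

/-- **Row A-CERT.** -/
theorem rowCrt (hG : RowGeo n) (hW : RowWd n) (hM : RowMu n) (hD : RowDeep n) : RowCrt n := by
  obtain ⟨μN, εN, CN, pμ, pε, pC, near⟩ := near_ex n
  obtain ⟨K₁, K₁1, ga⟩ := ga_ex
  obtain ⟨Cg, Cg1, Cg0, geo⟩ := hG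
  obtain ⟨Cm, Cm1, Cm0, mu⟩ := hM
  -- the constants
  have HL : ∀ c : ℝ, ∃ CL : ℝ, 0 < CL ∧ (0 < c → ∀ q : Cst, 0 < q.e₁ → q.e₁ ≤ 1 →
      ∀ r, c / 2 ≤ r → H768.A.Sl1 q r ≤ CL ∧ |H768.A.Sl2 q r| ≤ CL) := by
    intro c
    by_cases hc : 0 < c
    · obtain ⟨CL, h1, h2⟩ := H768.A.Sl_bd (c₀ := c / 2) (by positivity)
      exact ⟨CL, h1, fun _ => h2⟩
    · exact ⟨1, one_pos, fun h => absurd h hc⟩
  choose CL CL0 hCL using HL
  obtain ⟨μ₀, hμ₀⟩ : ∃ μ₀ : Cst → ℝ, μ₀ = fun q => if 0 < q.c₀ then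
    min (1 / 13200000) (μN q.c₀ * q.c₀ / 16) else 1 := ⟨_, rfl⟩
  have μ1 : NB_ν₁ μ₀ := by subst hμ₀; intro q; rfl
  have μ2 : ∀ q, 0 < μ₀ q := by
    intro q
    rw [hμ₀]
    simp only
    split_ifs with h
    · exact lt_min (by norm_num) (by have := pμ q.c₀; positivity)
    · exact one_pos
  obtain ⟨ε₀, hε₀⟩ : ∃ ε₀ : Cst → ℝ, ε₀ = fun q => if 0 < q.rT then
    min (1 / 10000000000) (min (εN q.c₀) (q.rT / (8 * CN q.c₀))) else 1 := ⟨_, rfl⟩
  have e1 : NB_σ ε₀ := by subst hε₀; intro q; rfl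
  have e2 : ∀ q, 0 < ε₀ q := by
    intro q
    rw [hε₀]
    simp only
    split_ifs with h
    · exact lt_min (by norm_num) (lt_min (pε _) (by have := pC q.c₀; positivity))
    · exact one_pos
  obtain ⟨Kd, hKd⟩ : ∃ Kd : ℝ → ℝ, Kd = fun c => 2 * K₁ c / c + CL c + |slB 0 2| + 2 := ⟨_, rfl⟩
  obtain ⟨G₁, hG₁⟩ : ∃ G₁ : Cst → ℝ, G₁ = fun q =>
    10 * Kd q.c₀ / (q.c₀ / 2) + 50 * Kd q.c₀ + 25 * Kd q.c₀ ^ 2 := ⟨_, rfl⟩
  obtain ⟨a, ha⟩ : ∃ a : Cst → ℝ, a = fun q => if 0 < q.c₀ ∧ 0 < q.σ then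
    (3 * q.σ / 200) / (G₁ q + 8 * μ₀ q / q.c₀) else 1 := ⟨_, rfl⟩
  have Kd2 : ∀ c, 0 < c → 2 ≤ Kd c := by
    intro c hc
    rw [hKd]
    have h1 := K₁1 c
    have h2 := CL0 c
    have h3 : 0 < 2 * K₁ c / c := by positivity
    have h4 := abs_nonneg (slB 0 2)
    simp only
    linarith
  have G₁0 : ∀ q : Cst, 0 < q.c₀ → 0 < G₁ q := by
    intro q hc
    rw [hG₁]
    have := Kd2 _ hc
    simp only
    have h0 : 0 < Kd q.c₀ := by linarith
    positivity
  have a1 : NB_R a := by subst ha hG₁ hμ₀; intro q; rfl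
  have a2 : ∀ q, 0 < a q := by
    intro q
    rw [ha]
    simp only
    split_ifs with h
    · obtain ⟨h1, h2⟩ := h
      have h3 := G₁0 q h1
      have h4 := μ2 q
      positivity
    · exact one_pos
  refine ⟨μ₀, μ1, μ2, ?_⟩
  have t1 := EvC.at_e₁ (fun _ t => t ≤ 1 / 1000000000) fun _ => sml_le (by norm_num)
  have t2 := be_small (fun q => (1 + Cm q) * Cg q) (fun q => μN q.c₀) fun q => pμ _
  refine (((((((H768.A.ev_cn n).and EvC.pos).and t1).and t2).and (geo ε₀ e1 e2)).and mu).and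
    (hW.and (hD a a1 a2))).mono fun q h d hd z hz => ?_
  obtain ⟨⟨⟨⟨⟨⟨cn, pos⟩, he1⟩, hbe⟩, hgeo⟩, hmu⟩, hwd, hdeep⟩ := h
  obtain ⟨⟨-, -, -, -, -, hc, -, hT, -, -⟩, ⟨-, hσ, -⟩, -⟩ := pos
  have he1' : q.e₁ ≤ 1 / 1000000000 := he1
  have hB := hz.1
  obtain ⟨hop, w, heq⟩ := hwd d hd
  obtain ⟨geoN, geoD⟩ := hgeo d hd z hB
  obtain ⟨hr, r0⟩ := rr_pos hc hB
  obtain ⟨n1, G0, ng⟩ := NG_ge hd cn.M1 r0
  obtain ⟨p1, p2, b1, b2⟩ := gr_big hd cn.M1 hc hT hz
  have R0 : 0 < q.R := one_pos.trans_le cn.R1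
  have hε : ε₀ q ≤ 1 / 10000000000 ∧ ε₀ q ≤ εN q.c₀ ∧ ε₀ q ≤ q.rT / (8 * CN q.c₀) := by
    rw [hε₀]
    simp only [hT, if_true]
    exact ⟨min_le_left _ _, (min_le_right _ _).trans (min_le_left _ _),
      (min_le_right _ _).trans (min_le_right _ _)⟩
  have hμ : μ₀ q ≤ 1 / 13200000 ∧ μ₀ q ≤ μN q.c₀ * q.c₀ / 16 := by
    rw [hμ₀]
    simp only [hc, if_true]
    exact ⟨min_le_left _ _, min_le_right _ _⟩
  have hμ0 := μ2 q
  intro A B
  rcases le_total (-(4 * (q.κ₁ * q.R))) (d.u q z) with hu | hu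
  · -- away from the deep points
    have G := geoN hu
    have w0 : 0 ≤ dd A A + dd B B := add_nonneg (dd_self_nonneg _) (dd_self_nonneg _)
    have k0 : 0 < deriv (deriv d.Φ) (d.u q z) := hd.top.k0 _
    have ga0 : 0 ≤ deriv (deriv d.Φ) (d.u q z) * GA d.sx d.sy (d.u q) z A B ^ 2 :=
      mul_nonneg k0.le (sq_nonneg _)
    have N0 : 0 ≤ deriv d.Φ (d.u q z) := by
      have : 0 ≤ d.N q z := by linarith
      exact this
    have hr1 : 17 < q.r₁ * Real.exp (-1) := by
      have := mul_le_mul cn.r1 exp_neg_one_ge (by norm_num) (by linarith [cn.r1])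
      linarith
    have es1 : q.es ≤ 1 / 1000000000 := cn.s1.trans (by norm_num)
    have gl : q.σ / (100 * q.R) * NG q d z ≤ NG q d z * (q.σ / (40 * q.R)) := by
      rw [mul_comm]
      refine mul_le_mul_of_nonneg_left ?_ (by linarith)
      exact div_le_div_of_nonneg_left hσ.le (by positivity) (by linarith)
    have i1 : GG q d z / rr d z ≤ 2 / q.c₀ * GG q d z := by
      have : GG q d z / rr d z ≤ GG q d z / (q.c₀ / 2) :=
        div_le_div_of_nonneg_left G0.le (by positivity) hr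
      refine this.trans (le_of_eq ?_)
      field_simp
    rw [tc_cA₁, tc_cA₂]
    refine blend (r := rr d z) (pb_nonneg _) (pb_le_one _) pb_one pb_zero (fun h17 => ?_)
      fun h15 => ?_
    · -- near
      have c8 : CN q.c₀ * (ε₀ q * NG q d z) ≤ q.rT / 8 * NG q d z := by
        have h1 := hε.2.2
        have hC := pC q.c₀
        rw [le_div_iff₀ (by positivity)] at h1
        have h2 : CN q.c₀ * ε₀ q ≤ q.rT / 8 := by linarith
        calc CN q.c₀ * (ε₀ q * NG q d z) = CN q.c₀ * ε₀ q * NG q d z := by ring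
          _ ≤ _ := mul_le_mul_of_nonneg_right h2 (by linarith)
      have key := near q d z (ε₀ q) (gH Cg q d z) hc cn.e0 hr1 hd (sx_ok hd) (sy_ok hd) hop w heq
        hB G hε.2.1 h17 N0 p1 p2 (c8.trans b1) (c8.trans b2) A B
      have hb : NG q d z * (q.σ / (40 * q.R)) - μN q.c₀ * GG q d z ≤ NG q d z * gH Cg q d z := by
        unfold gH
        split_ifs with hi
        · have m1 := hmu d hd z hB hi.1 hi.2
          have m2 : (1 + Cm q) * Cg q * be q ≤ μN q.c₀ := by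
            have h3 : (1 + Cm q.b_M₀) * Cg q.b_M₀ * Real.log q.M₀ ^ (-(1 / 2) : ℝ) ≤ μN q.c₀ := hbe
            rw [Cm1 q, ← Cg1 q.b_M₀] at h3
            have h4 : Cg (q.b_M₀).b_Cs = Cg q := Cg1 q
            rw [h4] at h3
            exact h3
          have be0 : 0 ≤ be q := Real.rpow_nonneg (Real.log_nonneg cn.M1) _
          have m3 : NG q d z ≤ (1 + Cm q) * GG q d z := by
            unfold NG
            linarith
          have m4 : NG q d z * (Cg q * be q) ≤ (1 + Cm q) * GG q d z * (Cg q * be q) :=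
            mul_le_mul_of_nonneg_right m3 (mul_nonneg (Cg0 q).le be0)
          have m5 : (1 + Cm q) * Cg q * be q * GG q d z ≤ μN q.c₀ * GG q d z :=
            mul_le_mul_of_nonneg_right m2 G0.le
          have m6 : (1 + Cm q) * GG q d z * (Cg q * be q) =
            (1 + Cm q) * Cg q * be q * GG q d z := by ring
          rw [mul_sub]
          linarith
        · have := mul_pos (pμ q.c₀) G0
          rw [sub_zero]
          linarith
      have hm : 4 * (μ₀ q * (GG q d z / rr d z)) ≤ μN q.c₀ * GG q d z := by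
        have h1 : μ₀ q * (GG q d z / rr d z) ≤ μN q.c₀ * q.c₀ / 16 * (2 / q.c₀ * GG q d z) :=
          mul_le_mul hμ.2 i1 (by positivity) (by have := pμ q.c₀; positivity)
        have h2 : μN q.c₀ * q.c₀ / 16 * (2 / q.c₀ * GG q d z) = μN q.c₀ * GG q d z / 8 := by
          field_simp
          ring
        have := mul_pos (pμ q.c₀) G0
        linarith
      have h3 : 4 * mA μ₀ q d z ≤ 2 * μN q.c₀ * GG q d z + NG q d z * gH Cg q d z := by
        unfold mA
        have h4 : 4 * (μ₀ q * (GG q d z / rr d z) + q.σ / (400 * q.R) * NG q d z) =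
            4 * (μ₀ q * (GG q d z / rr d z)) + q.σ / (100 * q.R) * NG q d z := by
          field_simp
          ring
        rw [h4]
        linarith
      have h4 := mul_le_mul_of_nonneg_right h3 w0
      linarith
    · -- far
      have key := far_pt (g := gH Cg q d z) cn.e0 he1' es1 (by linarith [cn.r1]) hd (sx_ok hd)
        (sy_ok hd) hop w heq hB G hε.1 h15 N0 p1 p2 A B
      have hi : gH Cg q d z = q.σ / (40 * q.R) := by
        unfold gH
        rw [if_neg, sub_zero]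
        intro hi
        have h1 := rr_sq hB
        have h2 : (15:ℝ) ^ 2 ≤ rr d z ^ 2 := pow_le_pow_left₀ (by norm_num) h15 2
        linarith [hi.1]
      rw [hi] at key
      have hm : 4 * (μ₀ q * (GG q d z / rr d z)) ≤ GG q d z / (3300000 * rr d z) := by
        have h1 : GG q d z / (3300000 * rr d z) = GG q d z / rr d z / 3300000 := by field_simp
        have h2 : 0 ≤ GG q d z / rr d z := by positivity
        have h3 := mul_le_mul_of_nonneg_right hμ.1 h2
        rw [h1]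
        linarith
      have h3 : 4 * mA μ₀ q d z ≤ GG q d z / (3300000 * rr d z) +
          NG q d z * (q.σ / (40 * q.R)) := by
        unfold mA
        have h4 : 4 * (μ₀ q * (GG q d z / rr d z) + q.σ / (400 * q.R) * NG q d z) =
            4 * (μ₀ q * (GG q d z / rr d z)) + q.σ / (100 * q.R) * NG q d z := by
          field_simp
          ring
        rw [h4]
        linarith
      have h4 := mul_le_mul_of_nonneg_right h3 w0
      linarith
  · -- the deep points
    have G := geoD hu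
    have hGa := hdeep d hd z hB hu
    obtain ⟨g1, g2⟩ := ga n q d z hc hr G0.le G.ee G.hh
    have i1 : GG q d z / rr d z ≤ 2 / q.c₀ * GG q d z := by
      have : GG q d z / rr d z ≤ GG q d z / (q.c₀ / 2) :=
        div_le_div_of_nonneg_left G0.le (by positivity) hr
      refine this.trans (le_of_eq ?_)
      field_simp
    have hK := hCL q.c₀ hc q cn.e0 (cn.e1.trans (by norm_num)) (rr d z) hr
    have K0 := K₁1 q.c₀
    have k3 : 0 < 2 * K₁ q.c₀ / q.c₀ := by positivity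
    have k4 := abs_nonneg (slB 0 2)
    have k5 := CL0 q.c₀
    have kd : Kd q.c₀ = 2 * K₁ q.c₀ / q.c₀ + CL q.c₀ + |slB 0 2| + 2 := by rw [hKd]
    have gg : K₁ q.c₀ * (GG q d z / rr d z) ≤ Kd q.c₀ * GG q d z := by
      have h1 : K₁ q.c₀ * (GG q d z / rr d z) ≤ K₁ q.c₀ * (2 / q.c₀ * GG q d z) :=
        mul_le_mul_of_nonneg_left i1 (by linarith)
      have h2 : 2 * K₁ q.c₀ / q.c₀ * GG q d z ≤ Kd q.c₀ * GG q d z :=
        mul_le_mul_of_nonneg_right (by rw [kd]; linarith) G0.le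
      have h3 : K₁ q.c₀ * (2 / q.c₀ * GG q d z) = 2 * K₁ q.c₀ / q.c₀ * GG q d z := by ring
      linarith
    have hL2 : |lS₂ q (rr d z)| ≤ CL q.c₀ := by
      rw [← H768.A.Sl2_eq]
      exact hK.2
    have hL1 : lS₁ q (rr d z) ≤ CL q.c₀ := hK.1
    exact deep_all (Kd := Kd q.c₀) (G₁ := G₁ q) (μ := μ₀ q) (ε := ε₀ q) (a := a q) cn hσ hc hT hd
      (by linarith [Kd2 _ hc]) hμ0.le hop w heq hz G (hε.1.trans (by norm_num))
      (hL1.trans (by rw [kd]; linarith)) (hL2.trans (by rw [kd]; linarith))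
      (by rw [kd]; linarith) (Kd2 _ hc) (g1.trans gg) (g2.trans gg) (by rw [hG₁])
      (by
        have h1 : a q = (3 * q.σ / 200) / (G₁ q + 8 * μ₀ q / q.c₀) := by
          rw [ha]
          simp only [hc, hσ, and_self, if_true]
        rw [h1]
        have h2 := G₁0 q hc
        have h3 : 0 < G₁ q + 8 * μ₀ q / q.c₀ := by positivity
        rw [mul_div_cancel₀ _ h3.ne']) hGa A B

end Vale.Agent.P088.R2.H747.A
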