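import Vale.Agent.P088.R2.H281.A.Sup
import Vale.Agent.P088.R2.H747.A.Crt2

/-!
# P088, stage 3: zone A, the assembly
-/

open Set Filter MeasureTheory
open scoped ContDiff Topology

noncomputable section

namespace Vale.Agent.P088.R2.H747.A

open Vale.Agent.P088.LR
open Vale.Agent.P088.HY hiding dd
open Vale.Agent.P088.R2.H961.GW Vale.Agent.P088.R2.H644 Vale.Agent.P088.R2.H960.W
open Vale.Agent.P088.R2.H644.Ch (TH GA)
open Vale.Agent.P088.R2.H551.E Vale.Agent.P088.R2.H747.SW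
open Vale.Agent.P088.R2.H31.EP Vale.Agent.P088.R2.H230.W
open Vale.Agent.P088.R2.H464.Cu (mid dif rq)

variable {n : ℕ} {q : Cst} {d : Pk n} {z : VV n}

theorem nb_ν₁_c' {α : Type*} {f : Cst → α} (h : NB_ν₁ f) : NB_c' f := fun q => by
  rw [← h q.b_c', ← h q]
  rfl

theorem nb_ν₁_M₀ {α : Type*} {f : Cst → α} (h : NB_ν₁ f) : NB_M₀ f := fun q => by
  rw [← h q.b_M₀, ← h q]
  rfl

theorem nb_c'_M₀ {α : Type*} {f : Cst → α} (h : NB_c' f) : NB_M₀ f := fun q => by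
  rw [← h q.b_M₀, ← h q]
  rfl

/-- Zone A is open. -/
theorem isOpen_OmA (hd : PkOk q d) (hr : H509.Rad.Ok q.e₁ rp) (hs : LitSm q d)
    (hB : IsOpen (OmB q d)) : IsOpen (OmA q d) := by
  rw [isOpen_iff_mem_nhds]
  rintro z ⟨h1, h2, h3⟩
  have h0 : 0 < d.r2 z := lt_of_le_of_lt (sq_nonneg _) h1.1
  have c1 : ContinuousAt (fun w => (q.rT / 8 * NG q d w) ^ 2) z :=
    (continuousAt_const.mul (H281.A.NG_cont hd hr hs h0)).pow 2
  filter_upwards [hB.mem_nhds h1, c1.eventually_lt (H281.A.Wx2_cont hd hs).continuousAt h2,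
    c1.eventually_lt (H281.A.Wy2_cont hd hs).continuousAt h3] with w w1 w2 w3 using ⟨w1, w2, w3⟩

/-- **The zone theorem of zone A from its rows.** -/
theorem zoneA_of (hG : RowGeo n) (hW : RowWd n) (hC : RowCrt n) (hN : RowTotN n) (hF : RowTotF n)
    (hS : RowSms n) (hU : RowSup n) : ZoneA n := by
  obtain ⟨μ₀, μ1, μ2, crt⟩ := hC
  obtain ⟨K, K0, sms⟩ := hS
  obtain ⟨K₁, K₁1, ga⟩ := ga_ex
  obtain ⟨Cg, Cg1, Cg0, geo⟩ := hG
  refine ⟨μ₀, μ1, μ2, 2 * K, by positivity, ?_⟩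
  intro κ₀ ηA κ0 ηN hη k hk
  have e0 : ∀ q, 0 < ηA q := fun q => (hη q).1
  have fC : NB_c' fun q : Cst => K₁ q.c₀ := fun q => rfl
  have fC0 : ∀ q : Cst, 0 < K₁ q.c₀ := fun q => by linarith [K₁1 q.c₀]
  have g := geo (fun _ => 1) (fun _ => rfl) fun _ => one_pos
  refine ((((((H768.A.ev_cn n).and EvC.pos).and (EvC.rad.and (EvC.litSm n))).and
    (crt.and (hW.and g))).and (hN μ₀ ηA _ (nb_ν₁_c' μ1) ηN fC μ2 e0 fC0)).and
    ((hF μ₀ ηA _ (nb_ν₁_c' μ1) ηN fC μ2 e0 fC0).and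
    ((sms μ₀ ηA (nb_ν₁_M₀ μ1) (nb_c'_M₀ ηN) μ2 e0).and (hU k hk)))).mono fun q h d hd => ?_
  obtain ⟨⟨⟨⟨⟨cn, pos⟩, hrad, hlit⟩, hcrt, hwd, hgeo⟩, htN⟩, htF, hsms, hsup⟩ := h
  obtain ⟨⟨-, -, -, -, -, hc, -, hT, -, -⟩, -, -⟩ := pos
  have hs := hlit d hd
  obtain ⟨hop, -, -⟩ := hwd d hd
  obtain ⟨s1, s2, s3, s4⟩ := hsms d hd
  obtain ⟨c1, c2⟩ := hsup d hd
  have hΩ := isOpen_OmA hd hrad hs hop
  have row : RowA d.sx d.sy 0 0 (d.W q) (mA μ₀ q d) (cA₁ q d) (cA₂ q d) (ηA q) K (OmA q d) := by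
    refine ⟨s1, s2, s3, fun z hz => (s4 z hz).1, fun z hz => (s4 z hz).2, fun z hz => ?_⟩
    have hB := hz.1
    obtain ⟨hr, r0⟩ := rr_pos hc hB
    have G0 := GG_pos hd r0
    have he : dd (fun l => ee d l z) (fun l => ee d l z) = 1 ∧
        dd (fun l => hh l z) (fun l => hh l z) = 1 := by
      rcases le_total (-(4 * (q.κ₁ * q.R))) (d.u q z) with hu | hu
      · have G := (hgeo d hd z hB).1 hu
        exact ⟨G.ee, G.hh⟩
      · have G := (hgeo d hd z hB).2 hu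
        exact ⟨G.ee, G.hh⟩
    obtain ⟨p1, p2, -, -⟩ := gr_big hd cn.M1 hc hT hz
    obtain ⟨g1, g2⟩ := ga n q d z hc hr G0.le he.1 he.2
    have fd : FdB q d (K₁ q.c₀) (cA₁ q d) (cA₂ q d) z := by
      intro i l
      have n1 := nn_one he.1
      constructor
      · have h := cv_grad (e := ee d) (γ := ga₁ q d) p1 i l
        rw [n1, one_mul] at h
        exact h.trans g1
      · have h := cv_grad (e := ee d) (γ := ga₂ q d) p2 i l
        rw [n1, one_mul] at h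
        exact h.trans g2
    rcases le_total (rr d z) 17 with h17 | h17
    · exact htN d hd z hz h17 _ _ (hcrt d hd z hz) fd
    · exact htF d hd z hz (show 16 ≤ rr d z by linarith) _ _ (hcrt d hd z hz) fd
  obtain ⟨hη0, hη1, hη2, hη3⟩ := hη q
  exact RowA.zone (U := univ) (S := tsupport (d.ch q k)) (sx_ok hd) (sy_ok hd) contDiffOn_const
    contDiffOn_const (H281.A.W_sm hd hs).contDiffOn row c1 hΩ (subset_univ _)
    (isClosed_tsupport _) (by rw [univ_inter]; exact c2)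
    (fun z _ hz => image_eq_zero_of_notMem_tsupport hz) κ0 hη0 hη1 hη2 K0.le hη3

/-- **The zone theorem of zone A from the open rows.** -/
theorem zoneA (hG : RowGeo n) (hM : RowMu n) (hD : RowDeep n) (hN : RowTotN n) (hF : RowTotF n)
    (hS : RowSms n) (hX : H281.A.RowWX n) : ZoneA n :=
  zoneA_of hG (H768.A.rowWd n) (rowCrt hG (H768.A.rowWd n) hM hD) hN hF hS (H281.A.rowSup_of hX)

end Vale.Agent.P088.R2.H747.A
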