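import Vale.Agent.P088.R2.H747.A.Asm
import Vale.Agent.P088.R2.H230.W.Geo9
import Vale.Agent.P088.R2.H222.A.Mu
import Vale.Agent.P088.R2.H475.A.Deep
import Vale.Agent.P088.R2.H644.N.Rows
import Vale.Agent.P088.R2.H657.A.Tot
import Vale.Agent.P088.R2.H983.A.RowSms
import Vale.Agent.P088.R2.H768.A.RowWd
import Vale.Agent.P088.R2.H912.A.Sup
import Vale.Agent.P088.R2.H808.A.Sym

/-!
# P088, stage 3: zone A, the final theorem
-/

noncomputable section

namespace Vale.Agent.P088.R2.H747.A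

/-- **Zone A.** -/
theorem zoneA_all {n : ℕ} (hn : 1 ≤ n) : ZoneA n :=
  zoneA (H230.W.rowGeo n) (H222.A.rowMu n) (H475.A.rowDeep n) (H644.Pf.rowTotN hn)
    (H657.A.rowTotF hn)
    (H983.A.rowSms hn (H808.A.rowSym n) (H768.A.rowWd n) (H230.W.rowGeo n)) (H912.A.rowWX n)

end Vale.Agent.P088.R2.H747.A
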